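import Vale.Agent.P092.RC.Cc

/-!
P092, TEAM N, block [N-FR] (F5) (helper35): the map `SL_n(k) → PGL_n(k)`. It is continuous and
proper; its kernel is finite; discrete subgroups of `SL_n(k)` without center act properly
discontinuously on `PGL_n(k)`.
-/

set_option linter.all false

open scoped LinearAlgebra.Projectivization Matrix Pointwise
open Matrix Topology Filter

namespace Vale.Agent.P092.H35

open Vale.Agent.P092.RC (PG)

section alg

variable {k : Type} [NontriviallyNormedField k] {n : ℕ}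

/-- the class of a matrix -/
def mkP (k : Type) [NontriviallyNormedField k] (n : ℕ) : GL (Fin n) k →* PG k n :=
  QuotientGroup.mk' (Subgroup.center (GL (Fin n) k))

theorem mkP_surj : Function.Surjective (mkP k n) := QuotientGroup.mk'_surjective _

theorem mkP_cont : Continuous (mkP k n) := continuous_quotient_mk'

theorem mkP_apply (g : GL (Fin n) k) : mkP k n g = (QuotientGroup.mk g : PG k n) := rfl

theorem center_iff {g : GL (Fin n) k} :
    g ∈ Subgroup.center (GL (Fin n) k) ↔ ∃ c : k, g.1 = c • (1 : Matrix (Fin n) (Fin n) k) := by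
  rw [GeneralLinearGroup.mem_center_iff_val_mem_range_scalar]
  constructor
  · rintro ⟨c, hc⟩
    exact ⟨c, by rw [← hc, scalar_apply, smul_one_eq_diagonal]⟩
  · rintro ⟨c, hc⟩
    exact ⟨c, by rw [hc, scalar_apply, smul_one_eq_diagonal]⟩

theorem mkP_one_iff {g : GL (Fin n) k} :
    mkP k n g = 1 ↔ ∃ c : k, g.1 = c • (1 : Matrix (Fin n) (Fin n) k) := by
  rw [← center_iff, mkP_apply, QuotientGroup.eq_one_iff]

theorem mkP_eq_iff {g h : GL (Fin n) k} :
    mkP k n g = mkP k n h ↔ ∃ c : k, h.1 = c • g.1 := by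
  rw [mkP_apply, mkP_apply, QuotientGroup.eq, center_iff]
  refine exists_congr fun c => ?_
  constructor
  · intro hc
    have e : h.1 = g.1 * (g⁻¹ * h).1 := by
      rw [← Units.val_mul]; simp
    rw [e, hc, mul_smul_comm, mul_one]
  · intro hc
    rw [Units.val_mul, hc, Matrix.mul_smul, ← Units.val_mul, inv_mul_cancel, Units.val_one]

/-- `SL_n(k) → PGL_n(k)` -/
noncomputable def sp (k : Type) [NontriviallyNormedField k] (n : ℕ) :
    SpecialLinearGroup (Fin n) k →* PG k n :=
  (mkP k n).comp SpecialLinearGroup.toGL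

theorem sp_apply (g : SpecialLinearGroup (Fin n) k) :
    sp k n g = mkP k n (SpecialLinearGroup.toGL g) := rfl

theorem sp_cont : Continuous (sp k n) :=
  mkP_cont.comp SpecialLinearGroup.continuous_toGL

theorem sp_one_iff {g : SpecialLinearGroup (Fin n) k} :
    sp k n g = 1 ↔ ∃ c : k, g.1 = c • (1 : Matrix (Fin n) (Fin n) k) := by
  rw [sp_apply, mkP_one_iff]
  rfl

theorem sp_central {g : SpecialLinearGroup (Fin n) k} (h : sp k n g = 1)
    (x : SpecialLinearGroup (Fin n) k) : x * g = g * x := by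
  obtain ⟨c, hc⟩ := sp_one_iff.1 h
  apply Subtype.ext
  change x.1 * g.1 = g.1 * x.1
  rw [hc, mul_smul_comm, smul_mul_assoc, mul_one, one_mul]

/-- the kernel is finite -/
theorem sp_ker_finite (hn : n ≠ 0) : {g : SpecialLinearGroup (Fin n) k | sp k n g = 1}.Finite := by
  classical
  have h1 : {c : k | c ^ n = 1}.Finite := by
    have h2 : {c : k | c ^ n = 1} ⊆
        ((Polynomial.nthRoots n (1 : k)).toFinset : Set k) := by
      intro c hc
      simp only [Finset.mem_coe, Multiset.mem_toFinset]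
      exact (Polynomial.mem_nthRoots (Nat.pos_of_ne_zero hn)).2 hc
    exact (Finset.finite_toSet _).subset h2
  have h3 : (Subtype.val : SpecialLinearGroup (Fin n) k → Matrix (Fin n) (Fin n) k) ''
      {g | sp k n g = 1} ⊆ (fun c : k => c • (1 : Matrix (Fin n) (Fin n) k)) ''
        {c : k | c ^ n = 1} := by
    rintro _ ⟨g, hg, rfl⟩
    obtain ⟨c, hc⟩ := sp_one_iff.1 hg
    refine ⟨c, ?_, hc.symm⟩
    have h4 := g.2
    rw [hc, det_smul, det_one, mul_one, Fintype.card_fin] at h4
    exact h4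
  exact Set.Finite.of_finite_image ((h1.image _).subset h3) Subtype.val_injective.injOn

/-- an embedding of a group with infinite conjugacy classes stays injective in `PGL_n(k)` -/
theorem sp_inj_icc {Γ : Type*} [Group Γ] {q : Γ →* SpecialLinearGroup (Fin n) k}
    (hq : Function.Injective q)
    (hicc : ∀ g : Γ, g ≠ 1 → Set.Infinite {y : Γ | ∃ h, y = h * g * h⁻¹}) :
    Function.Injective ((sp k n).comp q) := by
  rw [injective_iff_map_eq_one]
  intro g hg
  by_contra hne
  refine hicc g hne ?_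
  have h1 : {y : Γ | ∃ h, y = h * g * h⁻¹} ⊆ {g} := by
    rintro y ⟨h, rfl⟩
    have h2 : h * g = g * h := hq (by rw [map_mul, map_mul]; exact sp_central hg (q h))
    rw [Set.mem_singleton_iff, h2, mul_inv_cancel_right]
  exact (Set.finite_singleton g).subset h1

end alg

/-! ### The size function -/

section size

variable {k : Type} [NontriviallyNormedField k] {n : ℕ}

/-- the maximum of the norms of the entries -/
noncomputable def nmx (A : Matrix (Fin n) (Fin n) k) : ℝ := ‖(fun i j => A i j : Fin n → Fin n → k)‖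

theorem nmx_cont : Continuous (nmx (k := k) (n := n)) := by
  have h : Continuous fun A : Matrix (Fin n) (Fin n) k => (fun i j => A i j : Fin n → Fin n → k) :=
    continuous_id
  exact h.norm

theorem nmx_smul (c : k) (A : Matrix (Fin n) (Fin n) k) : nmx (c • A) = ‖c‖ * nmx A := by
  rw [nmx, nmx, ← norm_smul]
  rfl

theorem nmx_nonneg (A : Matrix (Fin n) (Fin n) k) : 0 ≤ nmx A := norm_nonneg _

theorem le_nmx (A : Matrix (Fin n) (Fin n) k) (i j : Fin n) : ‖A i j‖ ≤ nmx A :=
  (norm_le_pi_norm (fun j => A i j) j).trans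
    (norm_le_pi_norm (fun i j => A i j : Fin n → Fin n → k) i)

/-- `‖g‖^n / |det g|` on `GL_n(k)` -/
noncomputable def npG (g : GL (Fin n) k) : ℝ := nmx g.1 ^ n / ‖g.1.det‖

theorem npG_cont : Continuous (npG (k := k) (n := n)) := by
  have h1 : Continuous fun g : GL (Fin n) k => g.1 := Units.continuous_val
  have h2 : Continuous fun g : GL (Fin n) k => ‖g.1.det‖ := h1.matrix_det.norm
  refine ((nmx_cont.comp h1).pow n).div h2 fun g => ?_
  have : g.1.det ≠ 0 := by
    have := (Matrix.isUnit_iff_isUnit_det g.1).1 g.isUnit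
    exact this.ne_zero
  exact norm_ne_zero_iff.2 this

theorem npG_eq {g h : GL (Fin n) k} (e : mkP k n g = mkP k n h) : npG g = npG h := by
  obtain ⟨c, hc⟩ := mkP_eq_iff.1 e
  rcases n.eq_zero_or_pos with h0 | h0
  · subst h0
    have : g = h := Subsingleton.elim _ _
    rw [this]
  · have hc0 : c ≠ 0 := by
      rintro rfl
      rw [zero_smul] at hc
      have h1 := (Matrix.isUnit_iff_isUnit_det h.1).1 h.isUnit
      haveI : Nonempty (Fin n) := ⟨⟨0, h0⟩⟩
      rw [hc, det_zero] at h1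
      exact not_isUnit_zero h1
    rw [npG, npG, hc, nmx_smul, det_smul, Fintype.card_fin, norm_mul, norm_pow, mul_pow,
      mul_div_mul_left _ _ (pow_ne_zero _ (norm_ne_zero_iff.2 hc0))]

/-- the size function on `PGL_n(k)` -/
noncomputable def np : PG k n → ℝ := fun x => npG (Quotient.out x : GL (Fin n) k)

theorem np_mkP (g : GL (Fin n) k) : np (mkP k n g) = npG g := by
  refine npG_eq ?_
  have : (QuotientGroup.mk (Quotient.out (mkP k n g) : GL (Fin n) k) : PG k n) = mkP k n g :=
    Quotient.out_eq _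
  exact this

theorem np_cont : Continuous (np (k := k) (n := n)) := by
  have h : IsQuotientMap (mkP k n) :=
    QuotientGroup.isQuotientMap_mk (Subgroup.center (GL (Fin n) k))
  rw [h.continuous_iff]
  have e : np ∘ (mkP k n) = npG := funext np_mkP
  rw [e]
  exact npG_cont

theorem np_sp (g : SpecialLinearGroup (Fin n) k) : np (sp k n g) = nmx g.1 ^ n := by
  rw [sp_apply, np_mkP, npG]
  have e : (SpecialLinearGroup.toGL g).1 = g.1 := rfl
  rw [e, g.2, norm_one, div_one]

theorem nmx_le_of_np (hn : n ≠ 0) {g : SpecialLinearGroup (Fin n) k} {R : ℝ}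
    (h : np (sp k n g) ≤ R) : nmx g.1 ≤ max 1 R := by
  rw [np_sp] at h
  rcases le_or_gt (nmx g.1) 1 with h1 | h1
  · exact h1.trans (le_max_left _ _)
  · exact ((le_self_pow₀ h1.le hn).trans h).trans (le_max_right _ _)

end size

/-! ### Properness -/

section proper

variable {k : Type} [NontriviallyNormedField k] {n : ℕ}

/-- bounded subsets of `SL_n(k)` are relatively compact -/
theorem isCompact_bdd [ProperSpace k] (r : ℝ) :
    IsCompact {g : SpecialLinearGroup (Fin n) k | nmx g.1 ≤ r} := by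
  have hc : IsClosedEmbedding (Subtype.val : SpecialLinearGroup (Fin n) k →
      Matrix (Fin n) (Fin n) k) := by
    refine ⟨⟨⟨rfl⟩, Subtype.val_injective⟩, ?_⟩
    have : Set.range (Subtype.val : SpecialLinearGroup (Fin n) k → Matrix (Fin n) (Fin n) k) =
        {A | A.det = 1} := by
      ext A
      constructor
      · rintro ⟨g, rfl⟩
        exact g.2
      · intro h
        exact ⟨⟨A, h⟩, rfl⟩
    rw [this]
    exact isClosed_eq (Continuous.matrix_det continuous_id) continuous_const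
  have hK : IsCompact {A : Matrix (Fin n) (Fin n) k | nmx A ≤ r} := by
    have h1 : IsCompact (Metric.closedBall (0 : Fin n → Fin n → k) r) :=
      isCompact_closedBall _ _
    have h2 : (Metric.closedBall (0 : Fin n → Fin n → k) r : Set (Fin n → Fin n → k)) =
        {A | ‖A‖ ≤ r} := by
      ext A
      exact mem_closedBall_zero_iff
    rw [h2] at h1
    exact h1
  exact hc.isCompact_preimage hK

/-- **`SL_n(k) → PGL_n(k)` is proper** -/
theorem sp_proper [ProperSpace k] (hn : n ≠ 0) {C : Set (PG k n)} (hC : IsCompact C)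
    (hcl : IsClosed C) : IsCompact (sp k n ⁻¹' C) := by
  obtain ⟨R, hR⟩ : ∃ R : ℝ, ∀ x ∈ C, np x ≤ R := by
    obtain ⟨R, hR⟩ := (hC.image np_cont).bddAbove
    exact ⟨R, fun x hx => hR ⟨x, hx, rfl⟩⟩
  refine (isCompact_bdd (max 1 R)).of_isClosed_subset (hcl.preimage sp_cont) ?_
  intro g hg
  exact nmx_le_of_np hn (hR _ hg)

variable {Γ : Type*} [Group Γ] {q : Γ →* SpecialLinearGroup (Fin n) k}

/-- discreteness is inherited by the image in `PGL_n(k)` -/
theorem fin_of_compact (hn : n ≠ 0) (hq : ∀ r : ℝ, {γ : Γ | nmx (q γ).1 ≤ r}.Finite)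
    {C : Set (PG k n)} (hC : IsCompact C) : {γ : Γ | sp k n (q γ) ∈ C}.Finite := by
  obtain ⟨R, hR⟩ : ∃ R : ℝ, ∀ x ∈ C, np x ≤ R := by
    obtain ⟨R, hR⟩ := (hC.image np_cont).bddAbove
    exact ⟨R, fun x hx => hR ⟨x, hx, rfl⟩⟩
  exact (hq (max 1 R)).subset fun γ hγ => nmx_le_of_np hn (hR _ hγ)

/-- the action on `PGL_n(k)` is properly discontinuous -/
theorem fin_of_meet (hn : n ≠ 0) (hq : ∀ r : ℝ, {γ : Γ | nmx (q γ).1 ≤ r}.Finite)
    {C : Set (PG k n)} (hC : IsCompact C) :
    {γ : Γ | ∃ x ∈ C, sp k n (q γ) * x ∈ C}.Finite := by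
  have h1 : IsCompact ((fun p : PG k n × PG k n => p.1 * p.2⁻¹) '' (C ×ˢ C)) :=
    (hC.prod hC).image (continuous_fst.mul continuous_snd.inv)
  refine (fin_of_compact hn hq h1).subset ?_
  rintro γ ⟨x, hx, hx'⟩
  exact ⟨(sp k n (q γ) * x, x), ⟨hx', hx⟩, by simp⟩

/-- **wandering neighbourhoods** -/
theorem wander [T2Space (PG k n)] [LocallyCompactSpace (PG k n)] (hn : n ≠ 0)
    (hq : ∀ r : ℝ, {γ : Γ | nmx (q γ).1 ≤ r}.Finite)
    (hinj : Function.Injective ((sp k n).comp q)) (x : PG k n) :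
    ∃ U : Set (PG k n), IsOpen U ∧ x ∈ U ∧ ∀ γ : Γ, γ ≠ 1 → ∀ y ∈ U, sp k n (q γ) * y ∉ U := by
  obtain ⟨C, hC, hxC⟩ := exists_compact_mem_nhds x
  have hF := fin_of_meet hn hq hC
  have hne : ∀ γ : Γ, γ ≠ 1 → sp k n (q γ) * x ≠ x := by
    intro γ hγ h
    refine hγ (hinj ?_)
    rw [map_one]
    exact mul_eq_right.1 h
  have hsep : ∀ γ : Γ, ∃ V : Set (PG k n), IsOpen V ∧ x ∈ V ∧
      (γ ≠ 1 → ∀ y ∈ V, sp k n (q γ) * y ∉ V) := by
    intro γ
    by_cases hγ : γ = 1
    · exact ⟨Set.univ, isOpen_univ, trivial, fun h => absurd hγ h⟩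
    · obtain ⟨A, B, hA, hB, hxA, hxB, hAB⟩ := t2_separation (hne γ hγ)
      refine ⟨B ∩ (fun y => sp k n (q γ) * y) ⁻¹' A,
        hB.inter (hA.preimage (continuous_const.mul continuous_id)), ⟨hxB, hxA⟩, ?_⟩
      rintro _ y ⟨hy1, hy2⟩ ⟨hy3, hy4⟩
      exact Set.disjoint_left.1 hAB hy2 hy3
  choose V hVo hxV hV using hsep
  refine ⟨interior C ∩ ⋂ γ ∈ hF.toFinset, V γ, isOpen_interior.inter
    (isOpen_biInter_finset fun γ _ => hVo γ), ⟨mem_interior_iff_mem_nhds.2 hxC,
    Set.mem_iInter₂.2 fun γ _ => hxV γ⟩, ?_⟩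
  rintro γ hγ y ⟨hy1, hy2⟩ ⟨hy3, hy4⟩
  have hmem : γ ∈ hF.toFinset := by
    rw [Set.Finite.mem_toFinset]
    exact ⟨y, interior_subset hy1, interior_subset hy3⟩
  exact hV γ hγ y (Set.mem_iInter₂.1 hy2 γ hmem) (Set.mem_iInter₂.1 hy4 γ hmem)

end proper

end Vale.Agent.P092.H35
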