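import Mathlib

/-!
P092 (helper35): the finite orbit lemma.  `p : Λ → H` a homomorphism with dense image in a
topological group, `φ` a function on `Λ` tending to zero at infinity which is almost invariant
under conjugation by the elements of `Λ` which are close to `1` in `H`.  Then `φ v = 0` as soon as
the centralizer of `p v` in `H` is not open.
-/

open Filter Topology

namespace Vale.Agent.P092.H35

/-- If finitely many conjugates are met along a dense subgroup near `1`, the centralizer is open. -/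
theorem centralizer_open_of_finite {Λ H : Type*} [Group Λ] [Group H] [TopologicalSpace H]
    [IsTopologicalGroup H] [T1Space H] (p : Λ →* H) (hd : DenseRange p) (x : H) (U : Set H)
    (hU : U ∈ 𝓝 (1 : H)) (K : Set H) (hK : K.Finite)
    (h : ∀ w : Λ, p w ∈ U → p w * x * (p w)⁻¹ ∈ K) :
    IsOpen ((Subgroup.centralizer {x} : Subgroup H) : Set H) := by
  obtain ⟨O, hOU, hO, h1⟩ := mem_nhds_iff.1 hU
  have hcont : Continuous fun g : H => g * x * g⁻¹ := by fun_prop
  -- all of `O` conjugates `x` into `K`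
  have hOK : ∀ g ∈ O, g * x * g⁻¹ ∈ K := by
    intro g hg
    have hcl : IsClosed ((fun g : H => g * x * g⁻¹) ⁻¹' K) := hK.isClosed.preimage hcont
    have hsub : O ∩ Set.range p ⊆ (fun g : H => g * x * g⁻¹) ⁻¹' K := by
      rintro _ ⟨hw, w, rfl⟩
      exact h w (hOU hw)
    have hg' : g ∈ closure (O ∩ Set.range p) := hd.open_subset_closure_inter hO hg
    exact (closure_minimal hsub hcl) hg'
  -- near `1` the conjugate is `x`
  have hO2 : IsOpen (O ∩ (fun g : H => g * x * g⁻¹) ⁻¹' (K \ {x})ᶜ) := by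
    refine hO.inter (IsOpen.preimage hcont ?_)
    exact (hK.subset Set.diff_subset).isClosed.isOpen_compl
  refine Subgroup.isOpen_of_mem_nhds (g := 1) _ ?_
  refine mem_of_superset (hO2.mem_nhds ⟨h1, ?_⟩) ?_
  · simp
  · rintro g ⟨hg, hg2⟩
    have hk := hOK g hg
    have hx : g * x * g⁻¹ = x := by
      by_contra hne
      exact hg2 ⟨hk, hne⟩
    show g ∈ (Subgroup.centralizer {x} : Subgroup H)
    rw [Subgroup.mem_centralizer_singleton_iff]
    calc g * x = g * x * g⁻¹ * g := by group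
      _ = x * g := by rw [hx]

/-- The finite orbit lemma. -/
theorem orb_zero {Λ H E : Type*} [Group Λ] [Group H] [TopologicalSpace H] [IsTopologicalGroup H]
    [T1Space H] [NormedAddCommGroup E] (p : Λ →* H) (hd : DenseRange p) (φ : Λ → E)
    (h0 : Tendsto φ cofinite (𝓝 0)) (v : Λ)
    (hc : ∀ ε > 0, ∃ U ∈ 𝓝 (1 : H), ∀ w, p w ∈ U → ‖φ (w * v * w⁻¹) - φ v‖ < ε)
    (hv : ¬ IsOpen ((Subgroup.centralizer {p v} : Subgroup H) : Set H)) : φ v = 0 := by
  by_contra hne
  have hpos : 0 < ‖φ v‖ := norm_pos_iff.2 hne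
  obtain ⟨U, hU, hUw⟩ := hc (‖φ v‖ / 2) (by positivity)
  have hfin : {x : Λ | ‖φ v‖ / 2 ≤ ‖φ x‖}.Finite := by
    have := (Metric.tendsto_nhds.1 h0) (‖φ v‖ / 2) (by positivity)
    rw [eventually_cofinite] at this
    refine this.subset ?_
    intro x hx
    simp only [Set.mem_setOf_eq] at hx ⊢
    rw [dist_zero_right]
    exact not_lt.2 hx
  refine hv (centralizer_open_of_finite p hd (p v) U hU (p '' {x : Λ | ‖φ v‖ / 2 ≤ ‖φ x‖})
    (hfin.image _) ?_)
  intro w hw
  refine ⟨w * v * w⁻¹, ?_, by simp⟩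
  have h1 := hUw w hw
  have h2 : ‖φ v‖ ≤ ‖φ (w * v * w⁻¹)‖ + ‖φ (w * v * w⁻¹) - φ v‖ := by
    calc ‖φ v‖ = ‖φ (w * v * w⁻¹) - (φ (w * v * w⁻¹) - φ v)‖ := by congr 1; abel
      _ ≤ _ := norm_sub_le _ _
  simp only [Set.mem_setOf_eq]
  linarith

end Vale.Agent.P092.H35
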