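import Vale.Agent.P092.H171.Gp
import Vale.Agent.P092.H789.Fr

/-!
P092, TEAM N, block [N-GP] (helper35): the frame points of a commuting family of calculi are in
general position, almost everywhere. All dimensions, all local fields.
-/

set_option linter.all false

open scoped LinearAlgebra.Projectivization InnerProductSpace
open Matrix Topology Filter MeasureTheory TopologicalSpace Set

namespace Vale.Agent.P092.H35

open Vale.Agent.P092.H820 Vale.Agent.P092.H789 Vale.Agent.P092.H171 Vale.Agent.P092.H466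

/-! ### Almost everywhere not incident -/

section ni

variable {P : Type*} [TopologicalSpace P] [CompactSpace P] [MetrizableSpace P]
  [MeasurableSpace P] [BorelSpace P] {ι : Type*} [Finite ι]
  {K : Type*} [NormedAddCommGroup K] [InnerProductSpace ℂ K] [CompleteSpace K]
  [SecondCountableTopology P]
  {Φ : C(ι → P, ℂ) →⋆ₐ[ℂ] (K →L[ℂ] K)} {φ : ι → (C(P, ℂ) →⋆ₐ[ℂ] (K →L[ℂ] K))}
  (hΦ : ∀ i f, Φ (co i f) = φ i f)

include hΦ

/-- **almost everywhere not incident**: if there is no vector on which the values of `φ i` and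
`φ j` are incident, then almost every pair of values is not incident -/
theorem ae_ninc {i j : ι} {I : Set (P × P)} (hI : IsClosed I)
    (h : ∀ ξ, (∀ u v : C(P, ℂ), (∀ x ∈ tsupport u, ∀ y ∈ tsupport v, (x, y) ∉ I) →
      φ i u (φ j v ξ) = 0) → ξ = 0) (ξ : K) : ∀ᵐ z ∂(ms Φ ξ), (z i, z j) ∉ I := by
  have hcont : Continuous fun z : ι → P => (z i, z j) :=
    (continuous_apply i).prodMk (continuous_apply j)
  have hc : IsClosed {z : ι → P | (z i, z j) ∈ I} := hI.preimage hcont
  have h1 : pv Φ {z : ι → P | (z i, z j) ∈ I} ξ = 0 := by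
    refine h _ fun u v huv => ?_
    rw [← hΦ, ← hΦ, ← mul_apply_eq_comp, ← mul_apply_eq_comp, ← map_mul]
    rw [phi_pv_congr Φ (f := co i u * co j v) (g := 0) (A := {z : ι → P | (z i, z j) ∈ I})
      (fun z hz => ?_)]
    · rw [map_zero, zero_mul, ContinuousLinearMap.zero_apply]
    · rw [ContinuousMap.mul_apply, co_apply, co_apply, ContinuousMap.zero_apply]
      by_contra hne
      have hu : u (z i) ≠ 0 := left_ne_zero_of_mul hne
      have hv : v (z j) ≠ 0 := right_ne_zero_of_mul hne
      exact huv _ (subset_tsupport _ hu) _ (subset_tsupport _ hv) hz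
  have h2 := enorm_pv_sq Φ hc.measurableSet ξ
  rw [h1] at h2
  have h3 : ms Φ ξ {z : ι → P | (z i, z j) ∈ I} = 0 := by rw [← h2]; simp
  exact measure_eq_zero_iff_ae_notMem.1 h3

end ni

/-! ### The separating hyperplanes of the source frame -/

section hyp

variable (k : Type) [NontriviallyNormedField k] (m : ℕ)

/-- the vectors `e_i` and `0` -/
def bv : Fin (m + 2) → (Fin (m + 1) → k) := Fin.lastCases (fun _ => 0) (fun i => Pi.single i 1)

@[simp] theorem bv_last : bv k m (Fin.last (m + 1)) = fun _ => 0 := by simp [bv]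

@[simp] theorem bv_castSucc (i : Fin (m + 1)) : bv k m i.castSucc = Pi.single i 1 := by simp [bv]

/-- the coordinates of the hyperplane through all the source points except `i` and `b` -/
def hv (i b : Fin (m + 2)) : Fin (m + 1) → k := bv k m b - bv k m i

variable {m}

theorem sv_dot_hv_of_ne {i b l : Fin (m + 2)} (hli : l ≠ i) (hlb : l ≠ b) :
    sv k m l ⬝ᵥ hv k m i b = 0 := by
  have key : ∀ l' : Fin (m + 1), ∀ c : Fin (m + 2), l'.castSucc ≠ c →
      (Pi.single l' (1 : k) : Fin (m + 1) → k) ⬝ᵥ bv k m c = 0 := by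
    intro l' c
    refine Fin.lastCases (fun _ => ?_) (fun c' hc => ?_) c
    · rw [bv_last]; simp
    · rw [bv_castSucc, single_dotProduct, one_mul, Pi.single_eq_of_ne]
      exact fun h => hc (by rw [h])
  rw [hv, dotProduct_sub]
  revert hli hlb
  refine Fin.lastCases (fun hli hlb => ?_) (fun l' hli hlb => ?_) l
  · rcases Fin.eq_castSucc_or_eq_last i with ⟨i', rfl⟩ | rfl
    · rcases Fin.eq_castSucc_or_eq_last b with ⟨b', rfl⟩ | rfl
      · simp [sv_last, bv_castSucc, dotProduct]
      · exact absurd rfl hlb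
    · exact absurd rfl hli
  · rw [sv_castSucc, key l' b hlb, key l' i hli, sub_zero]

theorem sv_dot_hv {i b : Fin (m + 2)} (hib : i ≠ b) : sv k m b ⬝ᵥ hv k m i b ≠ 0 := by
  rw [hv, dotProduct_sub]
  rcases Fin.eq_castSucc_or_eq_last b with ⟨b', rfl⟩ | rfl
  · rw [sv_castSucc, single_dotProduct, single_dotProduct, one_mul, one_mul, bv_castSucc,
      Pi.single_eq_same]
    rcases Fin.eq_castSucc_or_eq_last i with ⟨i', rfl⟩ | rfl
    · rw [bv_castSucc, Pi.single_eq_of_ne (fun h => hib (by rw [h])), sub_zero]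
      exact one_ne_zero
    · rw [bv_last, sub_zero]
      exact one_ne_zero
  · rcases Fin.eq_castSucc_or_eq_last i with ⟨i', rfl⟩ | rfl
    · simp [sv_last, bv_castSucc, dotProduct]
    · exact absurd rfl hib

theorem hv_ne {i b : Fin (m + 2)} (hib : i ≠ b) : hv k m i b ≠ 0 := by
  intro h
  refine sv_dot_hv k hib ?_
  rw [h, dotProduct_zero]

open Classical in
/-- the hyperplane through all the source points except `i` and `b` -/
noncomputable def hyp (i b : Fin (m + 2)) : YY k m :=
  if h : i ≠ b then pj k (Fin (m + 1)) ⟨hv k m i b, hv_ne k h⟩ else src k m i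

theorem src_hyp {i b l : Fin (m + 2)} (hib : i ≠ b) (hli : l ≠ i) (hlb : l ≠ b) :
    Projectivization.orthogonal (src k m l) (hyp k i b) := by
  rw [hyp, dif_pos hib]
  exact sv_dot_hv_of_ne k hli hlb

theorem src_not_hyp {i b : Fin (m + 2)} (hib : i ≠ b) :
    ¬ Projectivization.orthogonal (src k m b) (hyp k i b) := by
  rw [hyp, dif_pos hib]
  exact sv_dot_hv k hib

end hyp

/-! ### General position from separating hyperplanes -/

section gp

variable {k : Type} [NontriviallyNormedField k] {m : ℕ}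

/-- incidence of points and hyperplanes, both given by coordinates -/
def incN (k : Type) [NontriviallyNormedField k] (m : ℕ) : Set (YY k m × YY k m) :=
  {p | Projectivization.orthogonal p.1 p.2}

theorem incN_closed : IsClosed (incN k m) := by
  have hq : IsOpenQuotientMap (Prod.map (pj k (Fin (m + 1))) (pj k (Fin (m + 1)))) :=
    pj_oq.prodMap pj_oq
  rw [← hq.isQuotientMap.isClosed_preimage]
  have : Prod.map (pj k (Fin (m + 1))) (pj k (Fin (m + 1))) ⁻¹' incN k m =
      (fun p : {v : Fin (m + 1) → k // v ≠ 0} × {v : Fin (m + 1) → k // v ≠ 0} =>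
        p.1.1 ⬝ᵥ p.2.1) ⁻¹' {0} := by
    ext p
    rfl
  rw [this]
  refine isClosed_singleton.preimage ?_
  exact (continuous_subtype_val.comp continuous_fst).dotProduct
    (continuous_subtype_val.comp continuous_snd)

/-- **general position from separating hyperplanes** -/
theorem gpos_of_sep {z : Fin (m + 2) → YY k m} (y : Fin (m + 2) → Fin (m + 2) → YY k m)
    (h1 : ∀ i b l, i ≠ b → l ≠ i → l ≠ b → Projectivization.orthogonal (z l) (y i b))
    (h2 : ∀ i b, i ≠ b → ¬ Projectivization.orthogonal (z b) (y i b)) : GPos z := by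
  intro i h
  by_contra hcon
  push Not at hcon
  choose v hv using fun i => pj_surj (k := k) (ι := Fin (m + 1)) (z i)
  choose w hw using fun i b => pj_surj (k := k) (ι := Fin (m + 1)) (y i b)
  obtain ⟨x, rfl⟩ := pj_surj h
  have a1 : ∀ b l : Fin (m + 1), l ≠ b →
      (v (i.succAbove l)).1 ⬝ᵥ (w i (i.succAbove b)).1 = 0 := by
    intro b l hlb
    have := h1 i (i.succAbove b) (i.succAbove l) (Fin.ne_succAbove i b) (Fin.succAbove_ne i l)
      (fun h => hlb (Fin.succAbove_right_injective h))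
    rw [← hv, ← hw] at this
    exact this
  have a2 : ∀ b : Fin (m + 1), (v (i.succAbove b)).1 ⬝ᵥ (w i (i.succAbove b)).1 ≠ 0 := by
    intro b
    have := h2 i (i.succAbove b) (Fin.ne_succAbove i b)
    rw [← hv, ← hw] at this
    exact this
  have a3 : ∀ l : Fin (m + 1), (v (i.succAbove l)).1 ⬝ᵥ x.1 = 0 := by
    intro l
    have := hcon (i.succAbove l) (Fin.succAbove_ne i l)
    rw [← hv] at this
    exact this
  let V : Matrix (Fin (m + 1)) (Fin (m + 1)) k := Matrix.of fun l => (v (i.succAbove l)).1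
  let W : Matrix (Fin (m + 1)) (Fin (m + 1)) k := (Matrix.of fun b => (w i (i.succAbove b)).1)ᵀ
  have hVW : V * W = diagonal fun b => (v (i.succAbove b)).1 ⬝ᵥ (w i (i.succAbove b)).1 := by
    ext l b
    rw [Matrix.mul_apply']
    change (v (i.succAbove l)).1 ⬝ᵥ (w i (i.succAbove b)).1 = _
    by_cases hlb : l = b
    · subst hlb
      rw [diagonal_apply_eq]
    · rw [diagonal_apply_ne _ hlb, a1 b l hlb]
  have hV : V.det ≠ 0 := by
    intro h0
    have h3 := congrArg Matrix.det hVW
    rw [det_mul, h0, zero_mul, det_diagonal] at h3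
    exact (Finset.prod_ne_zero_iff.2 fun b _ => a2 b) h3.symm
  refine hV (exists_mulVec_eq_zero_iff.1 ⟨x.1, x.2, ?_⟩)
  funext l
  exact a3 l

end gp

/-! ### [N-GP] -/

section main

variable {k : Type} [NontriviallyNormedField k] [ProperSpace k] {m : ℕ}
  [MeasurableSpace (YY k m)] [BorelSpace (YY k m)] {ι : Type*} [Finite ι]
  {K : Type*} [NormedAddCommGroup K] [InnerProductSpace ℂ K] [CompleteSpace K]
  {Φ : C(ι → YY k m, ℂ) →⋆ₐ[ℂ] (K →L[ℂ] K)}
  {φ : ι → (C(YY k m, ℂ) →⋆ₐ[ℂ] (K →L[ℂ] K))}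

/-- **[N-GP]** The values of the frame points (indices `s l`) are in general position almost
everywhere; `t i b` is the index of the hyperplane through all the frame points but `i` and
`b`. -/
theorem ae_gpos (hΦ : ∀ i f, Φ (co i f) = φ i f) (s : Fin (m + 2) → ι)
    (t : Fin (m + 2) → Fin (m + 2) → ι)
    (hI : ∀ i b l, i ≠ b → l ≠ i → l ≠ b → ∀ u v : C(YY k m, ℂ),
      (∀ x ∈ tsupport u, ∀ y ∈ tsupport v, (x, y) ∉ incN k m) → φ (s l) u * φ (t i b) v = 0)
    (hN : ∀ i b, i ≠ b → ∀ ξ, (∀ u v : C(YY k m, ℂ),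
      (∀ x ∈ tsupport u, ∀ y ∈ tsupport v, (x, y) ∉ incN k m) →
        φ (s b) u (φ (t i b) v ξ) = 0) → ξ = 0) (ξ : K) :
    ∀ᵐ z ∂(ms Φ ξ), GPos fun l => z (s l) := by
  have h1 : ∀ i b l, i ≠ b → l ≠ i → l ≠ b →
      ∀ᵐ z ∂(ms Φ ξ), (z (s l), z (t i b)) ∈ incN k m := fun i b l hib hli hlb =>
    ae_inc hΦ incN_closed (hI i b l hib hli hlb) ξ
  have h2 : ∀ i b, i ≠ b → ∀ᵐ z ∂(ms Φ ξ), (z (s b), z (t i b)) ∉ incN k m := fun i b hib =>
    ae_ninc hΦ incN_closed (hN i b hib) ξ
  have h3 : ∀ᵐ z ∂(ms Φ ξ), ∀ i b l, i ≠ b → l ≠ i → l ≠ b →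
      (z (s l), z (t i b)) ∈ incN k m := by
    rw [ae_all_iff]; intro i
    rw [ae_all_iff]; intro b
    rw [ae_all_iff]; intro l
    by_cases hib : i ≠ b
    · by_cases hli : l ≠ i
      · by_cases hlb : l ≠ b
        · filter_upwards [h1 i b l hib hli hlb] with z hz _ _ _ using hz
        · exact Eventually.of_forall fun z _ _ h => absurd h hlb
      · exact Eventually.of_forall fun z _ h _ => absurd h hli
    · exact Eventually.of_forall fun z h _ _ => absurd h hib
  have h4 : ∀ᵐ z ∂(ms Φ ξ), ∀ i b, i ≠ b → (z (s b), z (t i b)) ∉ incN k m := by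
    rw [ae_all_iff]; intro i
    rw [ae_all_iff]; intro b
    by_cases hib : i ≠ b
    · filter_upwards [h2 i b hib] with z hz _ using hz
    · exact Eventually.of_forall fun z h => absurd h hib
  filter_upwards [h3, h4] with z hz3 hz4
  exact gpos_of_sep (fun i b => z (t i b)) (fun i b l hib hli hlb => hz3 i b l hib hli hlb)
    fun i b hib => hz4 i b hib

end main

end Vale.Agent.P092.H35
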