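import Vale.Agent.P092.H35.ReK
import Vale.Agent.P092.H793.Re.L
import Mathlib.Analysis.Matrix.PosDef
import Mathlib.Algebra.Order.Star.Real

/-!
P092, project RE (helper35): polar decomposition in a self-adjoint closed group which contains the
square roots of its positive definite elements; the theorem `Car`.
-/

set_option linter.all false

open Matrix Filter Topology

namespace Vale.Agent.P092.H35.RePol

open Vale.Agent.P092.H793.Re

variable {n : ℕ}

/-- A positive definite real matrix has a symmetric logarithm. -/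
theorem exists_log {P : Mat n} (hP : P.PosDef) : ∃ X : Mat n, Xᵀ = X ∧ NormedSpace.exp X = P := by
  obtain ⟨U, hU⟩ : ∃ U : Mat n, U = (hP.1.eigenvectorUnitary : Mat n) := ⟨_, rfl⟩
  have hUU : U * Uᵀ = 1 := by
    rw [hU]
    have := Unitary.coe_mul_star_self hP.1.eigenvectorUnitary
    rwa [Unitary.coe_star, Matrix.star_eq_conjTranspose,
      Matrix.conjTranspose_eq_transpose_of_trivial] at this
  have hinv : U⁻¹ = Uᵀ := Matrix.inv_eq_right_inv hUU
  have hunit : IsUnit U := (Matrix.isUnit_iff_isUnit_det U).2 (by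
    have := congrArg Matrix.det hUU
    rw [Matrix.det_mul, Matrix.det_transpose, Matrix.det_one] at this
    exact IsUnit.of_mul_eq_one _ this)
  have hPU : P = U * diagonal hP.1.eigenvalues * Uᵀ := by
    have := hP.1.spectral_theorem
    rw [Unitary.conjStarAlgAut_apply, Matrix.star_eq_conjTranspose,
      Matrix.conjTranspose_eq_transpose_of_trivial, ← hU] at this
    exact this
  refine ⟨U * diagonal (fun a => Real.log (hP.1.eigenvalues a)) * Uᵀ, ?_, ?_⟩
  · rw [Matrix.transpose_mul, Matrix.transpose_mul, Matrix.transpose_transpose,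
      diagonal_transpose, Matrix.mul_assoc]
  · rw [← hinv, Matrix.exp_conj _ _ hunit, Matrix.exp_diagonal, hinv]
    have e : (NormedSpace.exp (fun a => Real.log (hP.1.eigenvalues a)) : Fin n → ℝ) =
        hP.1.eigenvalues := by
      funext a
      rw [Pi.coe_exp, ← Real.exp_eq_exp_ℝ, Real.exp_log (hP.eigenvalues_pos a)]
    rw [e, ← hPU]

theorem posDef_exp {X : Mat n} (hX : Xᵀ = X) : (NormedSpace.exp X).PosDef := by
  have h1 : NormedSpace.exp X = (NormedSpace.exp ((1/2 : ℝ) • X))ᴴ *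
      NormedSpace.exp ((1/2 : ℝ) • X) := by
    rw [Matrix.conjTranspose_eq_transpose_of_trivial, ← Matrix.exp_transpose,
      Matrix.transpose_smul, hX, ← Matrix.exp_add_of_commute _ _ (Commute.refl _), ← add_smul]
    norm_num
  rw [h1]
  exact Matrix.PosDef.conjTranspose_mul_self _
    (Matrix.mulVec_injective_of_isUnit (Matrix.isUnit_exp _))

variable {G : Type} [Group G] [TopologicalSpace G] {ρ : G →* SLn n}

theorem exp_smul_add (X : Mat n) (s t : ℝ) :
    NormedSpace.exp ((s + t) • X) = NormedSpace.exp (s • X) * NormedSpace.exp (t • X) := by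
  rw [add_smul]
  exact Matrix.exp_add_of_commute _ _ (((Commute.refl X).smul_left s).smul_right t)

/-- the times at which the one parameter group is in the image -/
def tim (ρ : G →* SLn n) (X : Mat n) : AddSubgroup ℝ where
  carrier := {t | ∃ g, (ρ g).1 = NormedSpace.exp (t • X)}
  zero_mem' := ⟨1, by rw [map_one, zero_smul, NormedSpace.exp_zero]; rfl⟩
  add_mem' := by
    rintro s t ⟨g, hg⟩ ⟨g', hg'⟩
    exact ⟨g * g', by rw [map_mul, Matrix.SpecialLinearGroup.coe_mul, hg, hg', exp_smul_add]⟩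
  neg_mem' := by
    rintro t ⟨g, hg⟩
    refine ⟨g⁻¹, ?_⟩
    rw [coe_inv, hg, neg_smul, Matrix.exp_neg]

/-- `exp X` in the image and `X` symmetric: the whole one parameter group is in the image. -/
theorem lie_of_exp (hρ : RS ρ) {X : Mat n} (hX : Xᵀ = X)
    (h : ∃ g, (ρ g).1 = NormedSpace.exp X) : Lie ρ X := by
  have h1 : ∀ k : ℕ, (1 / 2 ^ k : ℝ) ∈ tim ρ X := by
    intro k
    induction k with
    | zero =>
      obtain ⟨g, hg⟩ := h
      exact ⟨g, by rw [hg]; norm_num⟩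
    | succ k ih =>
      obtain ⟨g, hg⟩ := ih
      have hsq : NormedSpace.exp ((1 / 2 ^ (k + 1) : ℝ) • X) *
          NormedSpace.exp ((1 / 2 ^ (k + 1) : ℝ) • X) = (ρ g).1 := by
        rw [hg, ← exp_smul_add]
        congr 2
        rw [pow_succ]; ring
      have hpd : (NormedSpace.exp ((1 / 2 ^ (k + 1) : ℝ) • X)).PosDef :=
        posDef_exp (by rw [Matrix.transpose_smul, hX])
      have hdet : (NormedSpace.exp ((1 / 2 ^ (k + 1) : ℝ) • X)).det = 1 := by
        have h2 := congrArg Matrix.det hsq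
        rw [Matrix.det_mul, (ρ g).2] at h2
        have h3 := hpd.det_pos
        nlinarith
      obtain ⟨g', hg'⟩ := hρ.sqrt ⟨_, hdet⟩ hpd ⟨g, Subtype.ext hsq.symm⟩
      exact ⟨g', by rw [hg']⟩
  have hd : Dense (tim ρ X : Set ℝ) := by
    refine AddSubgroup.dense_of_not_isolated_zero _ fun ε hε => ?_
    obtain ⟨k, hk⟩ := exists_pow_lt_of_lt_one hε (show (1 / 2 : ℝ) < 1 by norm_num)
    refine ⟨1 / 2 ^ k, h1 k, by positivity, ?_⟩
    rwa [← _root_.one_div_pow]
  have hc : IsClosed (tim ρ X : Set ℝ) := by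
    have h2 : (tim ρ X : Set ℝ) = (fun t : ℝ => NormedSpace.exp (t • X)) ⁻¹' im ρ := by
      ext t; rfl
    rw [h2]
    exact (im_closed hρ.emb).preimage (continuous_exp.comp (continuous_id.smul continuous_const))
  intro t
  have h3 : (tim ρ X : Set ℝ) = Set.univ := by
    rw [← hc.closure_eq]; exact hd.closure_eq
  have h4 : t ∈ (tim ρ X : Set ℝ) := by rw [h3]; trivial
  exact h4

/-- Polar decomposition. -/
theorem polar (hρ : RS ρ) (g : G) : ∃ (κ : G) (X : Mat n), Ort ρ κ ∧ Xᵀ = X ∧ Lie ρ X ∧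
    (ρ g).1 = (ρ κ).1 * NormedSpace.exp X := by
  obtain ⟨g', hg'⟩ := hρ.adj g
  have hP : ((ρ g).1ᵀ * (ρ g).1).PosDef := by
    have := Matrix.PosDef.conjTranspose_mul_self (ρ g).1
      (Matrix.mulVec_injective_of_isUnit (isUnit_coe g))
    rwa [Matrix.conjTranspose_eq_transpose_of_trivial] at this
  obtain ⟨Y, hY, hYe⟩ := exists_log hP
  have hYl : Lie ρ Y := lie_of_exp hρ hY ⟨g' * g, by
    rw [map_mul, Matrix.SpecialLinearGroup.coe_mul, hg', hYe]⟩
  have hXl : Lie ρ ((1/2 : ℝ) • Y) := lie_smul _ hYl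
  have hXt : ((1/2 : ℝ) • Y)ᵀ = (1/2 : ℝ) • Y := by rw [Matrix.transpose_smul, hY]
  obtain ⟨a, ha⟩ := exp_mem hXl
  have hsq : (ρ a).1 * (ρ a).1 = (ρ g).1ᵀ * (ρ g).1 := by
    rw [ha, ← exp_smul_add, ← hYe]
    norm_num
  have hat : (ρ a).1ᵀ = (ρ a).1 := by rw [ha, ← Matrix.exp_transpose, hXt]
  refine ⟨g * a⁻¹, (1/2 : ℝ) • Y, ?_, hXt, hXl, ?_⟩
  · show (ρ (g * a⁻¹)).1 * (ρ (g * a⁻¹)).1ᵀ = 1
    apply mul_eq_one_comm.1
    rw [map_mul, Matrix.SpecialLinearGroup.coe_mul, Matrix.transpose_mul]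
    have h1 : (ρ a⁻¹).1ᵀ = (ρ a⁻¹).1 := by
      rw [coe_inv, Matrix.transpose_nonsing_inv, hat]
    calc (ρ a⁻¹).1ᵀ * (ρ g).1ᵀ * ((ρ g).1 * (ρ a⁻¹).1)
        = (ρ a⁻¹).1 * ((ρ g).1ᵀ * (ρ g).1) * (ρ a⁻¹).1 := by rw [h1]; noncomm_ring
      _ = ((ρ a⁻¹).1 * (ρ a).1) * ((ρ a).1 * (ρ a⁻¹).1) := by rw [← hsq]; noncomm_ring
      _ = 1 := by rw [coe_inv_mul, coe_mul_inv, one_mul]
  · rw [← ha, map_mul, Matrix.SpecialLinearGroup.coe_mul, Matrix.mul_assoc, coe_inv_mul, mul_one]

/-- **The Cartan decomposition** -/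
theorem car : Car := by
  intro n G _ _ ρ h r p q w E hρ hD hS g
  exact ReK.car_of hρ hD hS (fun X Y hX hY => lie_add hρ.emb hX hY)
    (fun X Y hX hY => lie_bracket hρ.emb hX hY) (polar hρ) g

end Vale.Agent.P092.H35.RePol
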