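import Vale.Agent.P092.H325.Comm
import Vale.Agent.P092.H156.Int

/-!
P092 (helper35), block A-COMM2: an operator `S` of `L²(G; K)` which commutes with the left
multiplications by `V v` and with the right multiplications by `Γ` is `T ⊗ 1` with `T` an operator
of `L²(G)` which commutes with the left translations.
-/

set_option linter.all false

open MeasureTheory Set Filter ContinuousLinearMap
open scoped ENNReal Topology InnerProductSpace
open Vale.Agent.P092.H160 Vale.Agent.P092.H325 Vale.Agent.P092.H156.Sm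

namespace Vale.Agent.P092.H35

section tens

variable {X : Type*} [MeasurableSpace X] {K : Type*} [NormedAddCommGroup K]
  [InnerProductSpace ℂ K] [CompleteSpace K]

/-- the vector `x ↦ f x • u` -/
noncomputable def ten (μ : Measure X) (u : K) : Lp ℂ 2 μ →L[ℂ] Lp K 2 μ :=
  (ContinuousLinearMap.toSpanSingleton ℂ u).compLpL 2 μ

/-- the coefficient `x ↦ ⟪u, ξ x⟫` -/
noncomputable def cof (μ : Measure X) (u : K) : Lp K 2 μ →L[ℂ] Lp ℂ 2 μ :=
  (innerSL ℂ u).compLpL 2 μ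

theorem ten_ae (μ : Measure X) (u : K) (f : Lp ℂ 2 μ) : ten μ u f =ᵐ[μ] fun x => f x • u := by
  refine (ContinuousLinearMap.coeFn_compLpL _ _).trans ?_
  exact Eventually.of_forall fun x => by simp

theorem cof_ae (μ : Measure X) (u : K) (ξ : Lp K 2 μ) : cof μ u ξ =ᵐ[μ] fun x => ⟪u, ξ x⟫_ℂ :=
  ContinuousLinearMap.coeFn_compLpL _ _

theorem norm_ten_le (μ : Measure X) (u : K) (f : Lp ℂ 2 μ) : ‖ten μ u f‖ ≤ ‖f‖ * ‖u‖ := by
  have h1 := (ContinuousLinearMap.toSpanSingleton ℂ u).norm_compLpL_le (p := 2) (μ := μ)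
  have h2 : ‖ContinuousLinearMap.toSpanSingleton ℂ u‖ = ‖u‖ := by
    simp
  rw [h2] at h1
  have h3 := (ten μ u).le_opNorm f
  calc ‖ten μ u f‖ ≤ ‖ten μ u‖ * ‖f‖ := h3
    _ ≤ ‖u‖ * ‖f‖ := by gcongr; exact h1
    _ = ‖f‖ * ‖u‖ := mul_comm _ _

theorem inner_ten (μ : Measure X) (u : K) (f : Lp ℂ 2 μ) (ξ : Lp K 2 μ) :
    ⟪ten μ u f, ξ⟫_ℂ = ⟪f, cof μ u ξ⟫_ℂ := by
  rw [L2.inner_def, L2.inner_def]
  refine integral_congr_ae ?_
  filter_upwards [ten_ae μ u f, cof_ae μ u ξ] with x h1 h2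
  rw [h1, h2, inner_smul_left, RCLike.inner_apply, mul_comm]

theorem ten_add (μ : Measure X) (u w : K) (f : Lp ℂ 2 μ) :
    ten μ (u + w) f = ten μ u f + ten μ w f := by
  apply Lp.ext
  filter_upwards [ten_ae μ (u + w) f, ten_ae μ u f, ten_ae μ w f, Lp.coeFn_add (ten μ u f)
    (ten μ w f)] with x h1 h2 h3 h4
  rw [h1, h4, Pi.add_apply, h2, h3, smul_add]

theorem ten_smul (μ : Measure X) (c : ℂ) (u : K) (f : Lp ℂ 2 μ) :
    ten μ (c • u) f = c • ten μ u f := by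
  apply Lp.ext
  filter_upwards [ten_ae μ (c • u) f, ten_ae μ u f, Lp.coeFn_smul c (ten μ u f)] with x h1 h2 h3
  rw [h1, h3, Pi.smul_apply, h2, smul_comm]

/-- the map `u ↦ f ⊗ u` -/
noncomputable def tenK (μ : Measure X) (f : Lp ℂ 2 μ) : K →L[ℂ] Lp K 2 μ :=
  LinearMap.mkContinuous
    { toFun := fun u => ten μ u f
      map_add' := fun u w => ten_add μ u w f
      map_smul' := fun c u => ten_smul μ c u f } ‖f‖ fun u => norm_ten_le μ u f

theorem tenK_apply (μ : Measure X) (f : Lp ℂ 2 μ) (u : K) : tenK μ f u = ten μ u f := rfl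

theorem compLpL_ten (μ : Measure X) (A : K →L[ℂ] K) (u : K) (f : Lp ℂ 2 μ) :
    A.compLpL 2 μ (ten μ u f) = ten μ (A u) f := by
  apply Lp.ext
  filter_upwards [ContinuousLinearMap.coeFn_compLpL A (ten μ u f) (p := 2) (μ := μ),
    ten_ae μ u f, ten_ae μ (A u) f] with x h1 h2 h3
  rw [h1, h2, h3, map_smul]

theorem inner_compLpL (μ : Measure X) (A : K →L[ℂ] K) (ξ η : Lp K 2 μ) :
    ⟪ξ, A.compLpL 2 μ η⟫_ℂ = ⟪(adjoint A).compLpL 2 μ ξ, η⟫_ℂ := by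
  rw [L2.inner_def, L2.inner_def]
  refine integral_congr_ae ?_
  filter_upwards [ContinuousLinearMap.coeFn_compLpL A η (p := 2) (μ := μ),
    ContinuousLinearMap.coeFn_compLpL (adjoint A) ξ (p := 2) (μ := μ)] with x h1 h2
  rw [h1, h2, adjoint_inner_left]

theorem adjoint_compLpL (μ : Measure X) (A : K →L[ℂ] K) :
    adjoint (A.compLpL 2 μ) = (adjoint A).compLpL 2 μ := by
  symm
  rw [eq_adjoint_iff]
  intro x y
  exact (inner_compLpL μ A x y).symm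

theorem compLpL_comp (μ : Measure X) (A B : K →L[ℂ] K) (ξ : Lp K 2 μ) :
    (A * B).compLpL 2 μ ξ = A.compLpL 2 μ (B.compLpL 2 μ ξ) := by
  apply Lp.ext
  filter_upwards [ContinuousLinearMap.coeFn_compLpL (A * B) ξ (p := 2) (μ := μ),
    ContinuousLinearMap.coeFn_compLpL A (B.compLpL 2 μ ξ) (p := 2) (μ := μ),
    ContinuousLinearMap.coeFn_compLpL B ξ (p := 2) (μ := μ)] with x h1 h2 h3
  rw [h1, h2, h3]
  rfl

end tens

section reg

variable {X : Type*} [MeasurableSpace X] {Γ Λ K : Type} [Group Γ] [Group Λ]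
  [NormedAddCommGroup K] [InnerProductSpace ℂ K] [CompleteSpace K]
  {ρ : Γ →* (K →L[ℂ] K)} {V : Λ →* (K →L[ℂ] K)} {ω : K}

/-- The elementary vectors are total. -/
theorem eq_zero_of_cof [Countable Γ] (μ : Measure X) (h : RegRep ρ ω) (ξ : Lp K 2 μ)
    (h0 : ∀ g, cof μ (ρ g ω) ξ = 0) : ξ = 0 := by
  apply Lp.ext
  have h1 : ∀ᵐ x ∂μ, ∀ g : Γ, (0 : ℂ) = ⟪ρ g ω, ξ x⟫_ℂ := by
    rw [ae_all_iff]
    intro g
    have h2 := cof_ae μ (ρ g ω) ξ
    rw [h0 g] at h2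
    filter_upwards [h2, Lp.coeFn_zero ℂ 2 μ] with x h3 h4
    rw [← h3, h4]
    rfl
  filter_upwards [h1, Lp.coeFn_zero K 2 μ] with x h2 h3
  rw [h3]
  exact h.total _ fun g => (h2 g).symm

theorem eq_zero_of_inner_ten [Countable Γ] (μ : Measure X) (h : RegRep ρ ω) (ξ : Lp K 2 μ)
    (h0 : ∀ g f, ⟪ten μ (ρ g ω) f, ξ⟫_ℂ = 0) : ξ = 0 := by
  refine eq_zero_of_cof μ h ξ fun g => ?_
  have h1 := h0 g (cof μ (ρ g ω) ξ)
  rw [inner_ten] at h1
  exact inner_self_eq_zero.mp h1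

/-- An operator is determined by its values on the elementary vectors. -/
theorem op_ext [Countable Γ] (μ : Measure X) (h : RegRep ρ ω) {S S' : Lp K 2 μ →L[ℂ] Lp K 2 μ}
    (h0 : ∀ g f, S (ten μ (ρ g ω) f) = S' (ten μ (ρ g ω) f)) : S = S' := by
  have h1 : adjoint (S - S') = 0 := by
    ext1 ξ
    refine eq_zero_of_inner_ten μ h _ fun g f => ?_
    rw [adjoint_inner_right, sub_apply, h0, sub_self, inner_zero_left]
  have h2 : S - S' = 0 := by rw [← adjoint_adjoint (S - S'), h1, map_zero]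
  exact sub_eq_zero.mp h2

/-- matrix coefficients of an operator of `L²(X; K)` -/
noncomputable def mc (μ : Measure X) (S : Lp K 2 μ →L[ℂ] Lp K 2 μ) (f f' : Lp ℂ 2 μ) : K →L[ℂ] K :=
  (adjoint (tenK μ f')).comp (S.comp (tenK μ f))

theorem inner_mc (μ : Measure X) (S : Lp K 2 μ →L[ℂ] Lp K 2 μ) (f f' : Lp ℂ 2 μ) (u w : K) :
    ⟪w, mc μ S f f' u⟫_ℂ = ⟪ten μ w f', S (ten μ u f)⟫_ℂ := by
  rw [mc, comp_apply, adjoint_inner_right]
  rfl

theorem inner_ten_compLpL (μ : Measure X) (A : K →L[ℂ] K) (w : K) (f : Lp ℂ 2 μ) (ξ : Lp K 2 μ) :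
    ⟪ten μ w f, A.compLpL 2 μ ξ⟫_ℂ = ⟪ten μ (adjoint A w) f, ξ⟫_ℂ := by
  rw [inner_compLpL, compLpL_ten]

theorem mc_cmm (μ : Measure X) {S : Lp K 2 μ →L[ℂ] Lp K 2 μ}
    (hS : ∀ v ξ, S ((V v).compLpL 2 μ ξ) = (V v).compLpL 2 μ (S ξ)) (f f' : Lp ℂ 2 μ) :
    Cmm V (mc μ S f f') := by
  intro v
  ext1 u
  refine ext_inner_left ℂ fun w => ?_
  rw [mul_ap, mul_ap, inner_mc, ← compLpL_ten, hS, inner_ten_compLpL, ← inner_mc,
    adjoint_inner_left]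

/-- An operator which commutes with the `V v` commutes with everything in the commutant of `ρ`. -/
theorem comm_of_V [Countable Γ] (μ : Measure X) (hρ : RegRep ρ ω) (hV : RegRep V ω)
    (hc : ∀ g s, ρ g * V s = V s * ρ g) {S : Lp K 2 μ →L[ℂ] Lp K 2 μ}
    (hS : ∀ v ξ, S ((V v).compLpL 2 μ ξ) = (V v).compLpL 2 μ (S ξ)) {A : K →L[ℂ] K}
    (hA : Cmm ρ A) (ξ : Lp K 2 μ) : S (A.compLpL 2 μ ξ) = A.compLpL 2 μ (S ξ) := by
  have key : S.comp (A.compLpL 2 μ) = (A.compLpL 2 μ).comp S := by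
    refine op_ext μ hρ fun g f => ?_
    refine sub_eq_zero.mp (eq_zero_of_inner_ten μ hρ _ fun g' f' => ?_)
    rw [inner_sub_right, sub_eq_zero, comp_apply, comp_apply, compLpL_ten, inner_ten_compLpL,
      ← inner_mc, ← inner_mc, adjoint_inner_left]
    have e := congrArg (fun T : K →L[ℂ] K => T (ρ g ω))
      (RegRep.commute hρ hV hc (mc_cmm μ hS f f') hA)
    exact congrArg (fun u => ⟪ρ g' ω, u⟫_ℂ) e
  exact congrArg (fun T : Lp K 2 μ →L[ℂ] Lp K 2 μ => T ξ) key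

/-- the unitary `ρ g ω ↦ ρ (g h⁻¹) ω` of the commutant of `ρ` -/
noncomputable def lamK (hρ : RegRep ρ ω) (h : Γ) : K →L[ℂ] K :=
  (hρ.basis.repr.symm : Ell2 Γ →L[ℂ] K).comp ((rho h).comp (hρ.basis.repr : K →L[ℂ] Ell2 Γ))

theorem repr_basis (hρ : RegRep ρ ω) (g : Γ) : hρ.basis.repr (ρ g ω) = dl g := by
  classical
  rw [← hρ.basis_apply, HilbertBasis.repr_self, dl]

theorem repr_symm_dl (hρ : RegRep ρ ω) (g : Γ) : hρ.basis.repr.symm (dl g) = ρ g ω := by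
  rw [← repr_basis hρ, LinearIsometryEquiv.symm_apply_apply]

theorem lamK_apply (hρ : RegRep ρ ω) (h g : Γ) : lamK hρ h (ρ g ω) = ρ (g * h⁻¹) ω := by
  change hρ.basis.repr.symm (rho h (hρ.basis.repr (ρ g ω))) = _
  rw [repr_basis, rho_dl, repr_symm_dl]

theorem norm_lamK (hρ : RegRep ρ ω) (h : Γ) (u : K) : ‖lamK hρ h u‖ = ‖u‖ := by
  change ‖hρ.basis.repr.symm (rho h (hρ.basis.repr u))‖ = _
  rw [LinearIsometryEquiv.norm_map, norm_rho, LinearIsometryEquiv.norm_map]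

theorem cmm_lamK (hρ : RegRep ρ ω) (h : Γ) : Cmm ρ (lamK hρ h) := by
  intro k
  refine hρ.ext_op fun g => ?_
  rw [mul_ap, mul_ap, ← mul_ap (ρ k), ← map_mul, lamK_apply, lamK_apply, ← mul_ap, ← map_mul,
    mul_assoc]

end reg

section main

variable {Γ Λ G K : Type} [Group Γ] [Countable Γ] [Group Λ] [Group G] [TopologicalSpace G]
  [IsTopologicalGroup G] [MeasurableSpace G] [BorelSpace G]
  [NormedAddCommGroup K] [InnerProductSpace ℂ K] [CompleteSpace K]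
  {ρ : Γ →* (K →L[ℂ] K)} {V : Λ →* (K →L[ℂ] K)} {ω : K} {ι : Γ →* G} {μ : Measure G}
  [μ.IsMulLeftInvariant]

/-- the right multiplication by `Γ`: `(rlo γ ξ) x = ρ γ (ξ ((ι γ)⁻¹ x))` -/
noncomputable def rlo (μ : Measure G) [μ.IsMulLeftInvariant] (ι : Γ →* G) (ρ : Γ →* (K →L[ℂ] K))
    (γ : Γ) : Lp K 2 μ →L[ℂ] Lp K 2 μ :=
  ((ρ γ).compLpL 2 μ).comp (tl μ (ι γ))

theorem rlo_ae (γ : Γ) (ξ : Lp K 2 μ) :
    rlo μ ι ρ γ ξ =ᵐ[μ] fun x => ρ γ (ξ ((ι γ)⁻¹ * x)) := by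
  refine (ContinuousLinearMap.coeFn_compLpL _ _).trans ?_
  filter_upwards [tl_ae μ (ι γ) ξ] with x hx
  exact congrArg (ρ γ) hx

/-- the right multiplication is determined by the formula -/
theorem eq_rlo {R : Lp K 2 μ →L[ℂ] Lp K 2 μ} {γ : Γ}
    (hR : ∀ ξ, R ξ =ᵐ[μ] fun x => ρ γ (ξ ((ι γ)⁻¹ * x))) : R = rlo μ ι ρ γ := by
  ext1 ξ
  exact Lp.ext ((hR ξ).trans (rlo_ae γ ξ).symm)

theorem cjL_eq (hρ : RegRep ρ ω) (h : Γ) (ξ : Lp K 2 μ) :
    cjL μ ι (fun h => lamK hρ h * ρ h) h ξ = (lamK hρ h).compLpL 2 μ (rlo μ ι ρ h ξ) := by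
  rw [cjL, comp_apply, compLpL_comp]
  rfl

theorem ten_eq_emb (hρ : RegRep ρ ω) (f : Lp ℂ 2 μ) : ten μ ω f = emb μ hρ.basis f := by
  have h1 : hρ.basis 1 = ω := by rw [hρ.basis_apply, map_one]; rfl
  rw [ten, emb, h1]

theorem cof_eq_coef (hρ : RegRep ρ ω) (ξ : Lp K 2 μ) : cof μ ω ξ = coef μ hρ.basis 1 ξ := by
  have h1 : hρ.basis 1 = ω := by rw [hρ.basis_apply, map_one]; rfl
  rw [cof, coef, h1]

theorem cof_ten (h1 : ‖ω‖ = 1) (f : Lp ℂ 2 μ) : cof μ ω (ten μ ω f) = f := by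
  apply Lp.ext
  filter_upwards [cof_ae μ ω (ten μ ω f), ten_ae μ ω f] with x e1 e2
  rw [e1, e2, inner_smul_right, inner_self_eq_norm_sq_to_K, h1]
  simp

/-- infinitely many conjugates near `1` -/
theorem infinite_conj [T1Space G] (hι : DenseRange ι) {g : Γ}
    (hg : ¬ IsOpen ((Subgroup.centralizer {ι g} : Subgroup G) : Set G)) {U : Set G}
    (hU : U ∈ 𝓝 (1 : G)) : {k : Γ | ∃ h : Γ, ι h ∈ U ∧ k = h * g * h⁻¹}.Infinite := by
  intro hfin
  refine hg (centralizer_open_of_finite ι hι (ι g) U hU _ (hfin.image ι) fun w hw => ?_)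
  exact ⟨w * g * w⁻¹, ⟨w, hw, rfl⟩, by simp⟩

/-- The commutant lemma, first form: `S` commutes with the left multiplications by the commutant of
`ρ` and with the right multiplications. -/
theorem comm2_of_cmm [T1Space G] [IsLocallyFiniteMeasure μ] [μ.InnerRegularCompactLTTop]
    (hρ : RegRep ρ ω) (hι : DenseRange ι)
    (hC : ∀ g, g ≠ 1 → ¬ IsOpen ((Subgroup.centralizer {ι g} : Subgroup G) : Set G))
    {S : Lp K 2 μ →L[ℂ] Lp K 2 μ}
    (hA : ∀ A, Cmm ρ A → ∀ ξ, S (A.compLpL 2 μ ξ) = A.compLpL 2 μ (S ξ))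
    (hR : ∀ γ ξ, S (rlo μ ι ρ γ ξ) = rlo μ ι ρ γ (S ξ)) :
    ∃ T : Lp ℂ 2 μ →L[ℂ] Lp ℂ 2 μ, (∀ f u, S (ten μ u f) = ten μ u (T f)) ∧
      (∀ g f, T (tl μ g f) = tl μ g (T f)) := by
  set b := hρ.basis with hb
  set A : Γ → (K →L[ℂ] K) := fun h => lamK hρ h * ρ h with hAdef
  have hAn : ∀ h ξ, ‖A h ξ‖ = ‖ξ‖ := fun h ξ => by
    rw [hAdef]
    change ‖lamK hρ h (ρ h ξ)‖ = _
    rw [norm_lamK, hρ.norm_map]
  have hAb : ∀ h g, A h (b g) = b (h * g * h⁻¹) := fun h g => by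
    rw [hb, hρ.basis_apply, hρ.basis_apply]
    change lamK hρ h (ρ h (ρ g ω)) = _
    rw [← mul_ap (ρ h), ← map_mul, lamK_apply]
  have hinf : ∀ g : Γ, g ≠ 1 → ∀ U ∈ 𝓝 (1 : G), {k : Γ | ∃ h : Γ, ι h ∈ U ∧ k = h * g * h⁻¹}.Infinite :=
    fun g hg U hU => infinite_conj hι (hC g hg) hU
  have hS : ∀ h ξ, S (cjL μ ι A h ξ) = cjL μ ι A h (S ξ) := fun h ξ => by
    rw [cjL_eq hρ, hA _ (cmm_lamK hρ h), hR, ← cjL_eq hρ]
  have h1 : ∀ f, S (emb μ b f) = emb μ b (coef μ b 1 (S (emb μ b f))) := by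
    intro f
    refine eq_emb_of_continuous μ b ι hAn hAb hinf _ fun ε hε => ?_
    obtain ⟨U, hU, hUc⟩ := continuous_emb μ b ι hAb f (ε / (‖S‖ + 1)) (by positivity)
    refine ⟨U, hU, fun h hh => ?_⟩
    rw [← hS, ← map_sub]
    refine (S.le_opNorm _).trans ?_
    have h2 := hUc h hh
    have h3 : ‖S‖ * ‖cjL μ ι A h (emb μ b f) - emb μ b f‖ ≤ (‖S‖ + 1) * (ε / (‖S‖ + 1)) :=
      mul_le_mul (by linarith) h2 (norm_nonneg _) (by positivity)
    rwa [mul_div_cancel₀ _ (by positivity)] at h3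
  refine ⟨(coef μ b 1).comp (S.comp (emb μ b)), ?_, ?_⟩
  · intro f u
    -- both sides are continuous and linear in `u`, and agree on the dense orbit
    have key : ∀ g : Γ, S (ten μ (ρ g ω) f) = ten μ (ρ g ω) (coef μ b 1 (S (emb μ b f))) := by
      intro g
      have e1 : ρ g ω = lamK hρ g⁻¹ ω := by
        have := lamK_apply hρ g⁻¹ 1
        rw [map_one, inv_inv, one_mul] at this
        exact this.symm
      rw [e1, ← compLpL_ten, ← compLpL_ten, hA _ (cmm_lamK hρ _), ten_eq_emb hρ, ten_eq_emb hρ,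
        ← h1]
    have key2 : S.comp (tenK μ f) = tenK μ (coef μ b 1 (S (emb μ b f))) := by
      refine ContinuousLinearMap.ext_on (s := Set.range fun g => ρ g ω) ?_ ?_
      · rw [Submodule.dense_iff_topologicalClosure_eq_top,
          Submodule.topologicalClosure_eq_top_iff, Submodule.eq_bot_iff]
        intro v hv
        refine hρ.total v fun g => ?_
        rw [Submodule.mem_orthogonal] at hv
        exact hv _ (Submodule.subset_span ⟨g, rfl⟩)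
      · rintro _ ⟨g, rfl⟩
        exact key g
    exact congrArg (fun T : K →L[ℂ] Lp K 2 μ => T u) key2
  · intro g f
    have hcl : IsClosed {g : G | coef μ b 1 (S (emb μ b (tl μ g f))) =
        tl μ g (coef μ b 1 (S (emb μ b f)))} :=
      isClosed_eq (((coef μ b 1).continuous.comp S.continuous).comp
        ((emb μ b).continuous.comp (continuous_tl μ f))) (continuous_tl μ _)
    have hsub : closure (Set.range ι) ⊆ _ := hcl.closure_subset_iff.2 (by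
      rintro _ ⟨h, rfl⟩
      show coef μ b 1 (S (emb μ b (tl μ (ι h) f))) = tl μ (ι h) (coef μ b 1 (S (emb μ b f)))
      rw [← cjL_emb μ b ι hAb, hS]
      have := coef_cjL μ b ι hAn hAb h 1 (S (emb μ b f))
      rwa [mul_one, mul_inv_cancel] at this)
    rw [hι.closure_range] at hsub
    exact hsub (mem_univ g)

/-- **A-COMM2**: an operator `S` of `L²(G; K)` which commutes with the left multiplications by the
`V v` and the right multiplications by `Γ` is `T ⊗ 1`, and `T` commutes with the left translations.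
If `S` commutes with the right translation by `y`, so does `T`. -/
theorem comm2 [T1Space G] [IsLocallyFiniteMeasure μ] [μ.InnerRegularCompactLTTop]
    (h : TFrm ρ V ω) (hι : DenseRange ι)
    (hC : ∀ g, g ≠ 1 → ¬ IsOpen ((Subgroup.centralizer {ι g} : Subgroup G) : Set G))
    {S : Lp K 2 μ →L[ℂ] Lp K 2 μ}
    (hS : ∀ v ξ, S ((V v).compLpL 2 μ ξ) = (V v).compLpL 2 μ (S ξ))
    (hR : ∀ γ ξ, S (rlo μ ι ρ γ ξ) = rlo μ ι ρ γ (S ξ)) :
    ∃ T : Lp ℂ 2 μ →L[ℂ] Lp ℂ 2 μ, (∀ f u, S (ten μ u f) = ten μ u (T f)) ∧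
      (∀ g f, T (tl μ g f) = tl μ g (T f)) :=
  comm2_of_cmm h.reg hι hC (fun A hA ξ => comm_of_V μ h.reg h.regV
    (fun g s => ((h.comm s) g).symm) hS hA ξ) hR

/-- The coefficient of an operator of the form `T ⊗ 1`. -/
theorem T_apply (h1 : ‖ω‖ = 1) {S : Lp K 2 μ →L[ℂ] Lp K 2 μ} {T : Lp ℂ 2 μ →L[ℂ] Lp ℂ 2 μ}
    (hT : ∀ f u, S (ten μ u f) = ten μ u (T f)) (f : Lp ℂ 2 μ) :
    T f = cof μ ω (S (ten μ ω f)) := by
  rw [hT, cof_ten h1]

theorem T_tr [μ.IsMulRightInvariant] (h1 : ‖ω‖ = 1) {S : Lp K 2 μ →L[ℂ] Lp K 2 μ}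
    {T : Lp ℂ 2 μ →L[ℂ] Lp ℂ 2 μ} (hT : ∀ f u, S (ten μ u f) = ten μ u (T f)) {y : G}
    (hy : ∀ ξ, S (tr μ y ξ) = tr μ y (S ξ)) (f : Lp ℂ 2 μ) : T (tr μ y f) = tr μ y (T f) := by
  have e1 : ten μ ω (tr μ y f) = tr μ y (ten μ ω f) := by
    apply Lp.ext
    have h3 := (measurePreserving_mul_right μ y).quasiMeasurePreserving.ae (ten_ae μ ω f)
    filter_upwards [ten_ae μ ω (tr μ y f), tr_ae μ y f, tr_ae μ y (ten μ ω f), h3] with x a1 a2 a3 a4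
    rw [a1, a2, a3, a4]
  have e2 : ∀ ξ : Lp K 2 μ, cof μ ω (tr μ y ξ) = tr μ y (cof μ ω ξ) := by
    intro ξ
    apply Lp.ext
    have h3 := (measurePreserving_mul_right μ y).quasiMeasurePreserving.ae (cof_ae μ ω ξ)
    filter_upwards [cof_ae μ ω (tr μ y ξ), tr_ae μ y ξ, tr_ae μ y (cof μ ω ξ), h3] with
      x a1 a2 a3 a4
    rw [a1, a2, a3, a4]
  rw [T_apply h1 hT, T_apply h1 hT, e1, hy, e2]

/-- `S` is determined by `T`. -/
theorem S_unique (hρ : RegRep ρ ω) {S S' : Lp K 2 μ →L[ℂ] Lp K 2 μ} {T : Lp ℂ 2 μ →L[ℂ] Lp ℂ 2 μ}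
    (hT : ∀ f u, S (ten μ u f) = ten μ u (T f)) (hT' : ∀ f u, S' (ten μ u f) = ten μ u (T f)) :
    S = S' :=
  op_ext μ hρ fun g f => by rw [hT, hT']

theorem S_eq_zero (hρ : RegRep ρ ω) {S : Lp K 2 μ →L[ℂ] Lp K 2 μ}
    (hT : ∀ f u, S (ten μ u f) = ten μ u ((0 : Lp ℂ 2 μ →L[ℂ] Lp ℂ 2 μ) f)) : S = 0 :=
  S_unique hρ hT fun f u => by rw [zero_apply, zero_apply, map_zero]

theorem S_eq_one (hρ : RegRep ρ ω) {S : Lp K 2 μ →L[ℂ] Lp K 2 μ}
    (hT : ∀ f u, S (ten μ u f) = ten μ u ((1 : Lp ℂ 2 μ →L[ℂ] Lp ℂ 2 μ) f)) : S = 1 :=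
  S_unique hρ hT fun f u => rfl

theorem S_eq_smul (hρ : RegRep ρ ω) {S : Lp K 2 μ →L[ℂ] Lp K 2 μ} {c : ℂ}
    (hT : ∀ f u, S (ten μ u f) = ten μ u ((c • (1 : Lp ℂ 2 μ →L[ℂ] Lp ℂ 2 μ)) f)) : S = c • 1 :=
  S_unique hρ hT fun f u => by
    rw [smul_apply, smul_apply, one_apply_eq_self, one_apply_eq_self, map_smul]

/-- If `S` is self adjoint, so is `T`. -/
theorem T_adjoint (h1 : ‖ω‖ = 1) {S : Lp K 2 μ →L[ℂ] Lp K 2 μ} {T : Lp ℂ 2 μ →L[ℂ] Lp ℂ 2 μ}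
    (hT : ∀ f u, S (ten μ u f) = ten μ u (T f)) (hS : adjoint S = S) : adjoint T = T := by
  symm
  rw [eq_adjoint_iff]
  intro f f'
  rw [T_apply h1 hT f, T_apply h1 hT f', ← inner_ten, ← inner_conj_symm, ← inner_ten,
    inner_conj_symm, ← adjoint_inner_right, hS]

/-- If `S` is idempotent, so is `T`. -/
theorem T_mul (h1 : ‖ω‖ = 1) {S : Lp K 2 μ →L[ℂ] Lp K 2 μ} {T : Lp ℂ 2 μ →L[ℂ] Lp ℂ 2 μ}
    (hT : ∀ f u, S (ten μ u f) = ten μ u (T f)) (hS : S * S = S) : T * T = T := by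
  ext1 f
  change T (T f) = T f
  rw [T_apply h1 hT (T f), ← hT f ω]
  change cof μ ω ((S * S) (ten μ ω f)) = _
  rw [hS, ← T_apply h1 hT]

end main

end Vale.Agent.P092.H35
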