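import Vale.Agent.P092.H793.Re.Blocks
import Mathlib.Analysis.SpecialFunctions.Exponential
import Mathlib.Analysis.Calculus.DerivativeTest

/-!
P092, project RE, block [RE-K] (helper35): the Cartan decomposition, by maximising
`κ ↦ tr(κ X κᵀ diag(h))` over the compact group of orthogonal elements.
-/

set_option linter.all false

open Matrix Filter Topology

namespace Vale.Agent.P092.H35.ReK

open Vale.Agent.P092.H793.Re

variable {n : ℕ}

/-! ### One variable -/

/-- `t ↦ tr(exp(tZ) A exp(-tZ) H)` -/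
noncomputable def fn (Z H A : Mat n) (t : ℝ) : ℝ :=
  (NormedSpace.exp (t • Z) * A * NormedSpace.exp (t • (-Z)) * H).trace

theorem fn_zero (Z H A : Mat n) : fn Z H A 0 = (A * H).trace := by
  unfold fn
  rw [zero_smul, zero_smul, NormedSpace.exp_zero, one_mul, mul_one]

set_option backward.isDefEq.respectTransparency false in
open scoped Norms.Operator in
theorem hasDerivAt_fn (Z H A : Mat n) (t : ℝ) :
    HasDerivAt (fn Z H A) (fn Z H (Z * A - A * Z) t) t := by
  have h1 : HasDerivAt (fun u : ℝ => NormedSpace.exp (u • Z)) (NormedSpace.exp (t • Z) * Z) t :=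
    hasDerivAt_exp_smul_const Z t
  have h2 : HasDerivAt (fun u : ℝ => NormedSpace.exp (u • (-Z)))
      (-Z * NormedSpace.exp (t • (-Z))) t := hasDerivAt_exp_smul_const' (-Z) t
  have h3 := ((h1.mul_const A).mul h2).mul_const H
  have h4 := ((LinearMap.toContinuousLinearMap
    (Matrix.traceLinearMap (Fin n) ℝ ℝ)).hasFDerivAt.comp_hasDerivAt t h3)
  have e : (LinearMap.toContinuousLinearMap (Matrix.traceLinearMap (Fin n) ℝ ℝ))
      ((NormedSpace.exp (t • Z) * Z * A * NormedSpace.exp (t • -Z) +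
        NormedSpace.exp (t • Z) * A * (-Z * NormedSpace.exp (t • -Z))) * H) =
      fn Z H (Z * A - A * Z) t := by
    show ((NormedSpace.exp (t • Z) * Z * A * NormedSpace.exp (t • -Z) +
        NormedSpace.exp (t • Z) * A * (-Z * NormedSpace.exp (t • -Z))) * H).trace = _
    unfold fn
    congr 1
    noncomm_ring
  rw [← e]
  exact h4

theorem deriv_fn (Z H A : Mat n) : deriv (fn Z H A) = fn Z H (Z * A - A * Z) :=
  funext fun t => (hasDerivAt_fn Z H A t).deriv

/-- first order condition -/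
theorem first_order {Z H A : Mat n} (hmax : ∀ t, fn Z H A t ≤ fn Z H A 0) :
    ((Z * A - A * Z) * H).trace = 0 := by
  have h1 : IsLocalMax (fn Z H A) 0 := Filter.Eventually.of_forall hmax
  have h2 := h1.deriv_eq_zero
  rwa [deriv_fn, fn_zero] at h2

/-- second order condition -/
theorem second_order {Z H A : Mat n} (hmax : ∀ t, fn Z H A t ≤ fn Z H A 0) :
    ((Z * (Z * A - A * Z) - (Z * A - A * Z) * Z) * H).trace ≤ 0 := by
  by_contra hc
  push Not at hc
  have h1 : deriv (fn Z H A) 0 = 0 := by rw [deriv_fn, fn_zero]; exact first_order hmax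
  have h2 : deriv (deriv (fn Z H A)) 0 > 0 := by
    rw [deriv_fn, deriv_fn, fn_zero]; exact hc
  have h3 : IsLocalMin (fn Z H A) 0 :=
    isLocalMin_of_deriv_deriv_pos h2 h1 (hasDerivAt_fn Z H A 0).continuousAt
  have h4 : fn Z H A =ᶠ[𝓝 0] fun _ => fn Z H A 0 := by
    filter_upwards [h3] with t ht
    exact le_antisymm (hmax t) ht
  have h5 : deriv (fn Z H A) =ᶠ[𝓝 0] fun _ => 0 := by
    have := h4.deriv
    simpa using this
  have h6 := h5.deriv_eq
  rw [deriv_const] at h6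
  exact absurd h6 h2.ne'

/-! ### Elementary facts on the Lie algebra -/

variable {G : Type} [Group G] [TopologicalSpace G] {ρ : G →* SLn n}

theorem lie_smul {X : Mat n} (h : Lie ρ X) (c : ℝ) : Lie ρ (c • X) := fun t => by
  rw [smul_smul]; exact h (t * c)

theorem lie_neg {X : Mat n} (h : Lie ρ X) : Lie ρ (-X) := by
  have := lie_smul h (-1)
  rwa [neg_one_smul] at this

theorem lie_transpose (hρ : RS ρ) {X : Mat n} (h : Lie ρ X) : Lie ρ Xᵀ := fun t => by
  obtain ⟨g, hg⟩ := h t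
  obtain ⟨g', hg'⟩ := hρ.adj g
  exact ⟨g', by rw [hg', hg, ← Matrix.exp_transpose, Matrix.transpose_smul]⟩

theorem ort_inv {κ : G} (hκ : Ort ρ κ) : (ρ κ).1ᵀ = (ρ κ).1⁻¹ :=
  (Matrix.inv_eq_right_inv hκ).symm

theorem ort_isUnit {κ : G} (hκ : Ort ρ κ) : IsUnit (ρ κ).1 :=
  (Matrix.isUnit_iff_isUnit_det _).2 (by rw [(ρ κ).2]; exact isUnit_one)

theorem lie_conj {X : Mat n} (h : Lie ρ X) {κ : G} (hκ : Ort ρ κ) :
    Lie ρ ((ρ κ).1 * X * (ρ κ).1ᵀ) := fun t => by
  obtain ⟨g, hg⟩ := h t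
  refine ⟨κ * g * κ⁻¹, ?_⟩
  have h1 : (ρ κ⁻¹).1 = (ρ κ).1ᵀ := by
    rw [ort_inv hκ]
    refine (Matrix.inv_eq_right_inv ?_).symm
    rw [← Matrix.SpecialLinearGroup.coe_mul, ← map_mul, mul_inv_cancel, map_one,
      Matrix.SpecialLinearGroup.coe_one]
  rw [map_mul, map_mul, Matrix.SpecialLinearGroup.coe_mul, Matrix.SpecialLinearGroup.coe_mul, hg,
    h1, ort_inv hκ, ← Matrix.exp_conj _ _ (ort_isUnit hκ)]
  congr 1
  rw [Matrix.mul_smul, Matrix.smul_mul]

theorem exp_neg_eq {Z : Mat n} (hZ : Zᵀ = -Z) (t : ℝ) :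
    NormedSpace.exp (t • (-Z)) = (NormedSpace.exp (t • Z))ᵀ := by
  rw [← Matrix.exp_transpose, Matrix.transpose_smul, hZ]

theorem exp_mul_exp_neg (Z : Mat n) (t : ℝ) :
    NormedSpace.exp (t • Z) * NormedSpace.exp (t • (-Z)) = 1 := by
  have h : Commute (t • Z) (t • (-Z)) := by
    rw [smul_neg]; exact (Commute.refl _).neg_right
  rw [← Matrix.exp_add_of_commute _ _ h, smul_neg, add_neg_cancel, NormedSpace.exp_zero]

/-! ### The compact group of orthogonal elements -/

/-- the orthogonal matrices in the image -/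
def KK (ρ : G →* SLn n) : Set (Mat n) := {M | M * Mᵀ = 1 ∧ ∃ g, (ρ g).1 = M}

theorem isClosed_range (hρ : RS ρ) : IsClosed (Set.range fun g => (ρ g).1) := by
  have h3 : Topology.IsClosedEmbedding (fun g : SLn n => (g : Matrix (Fin n) (Fin n) ℝ)) :=
    Matrix.SpecialLinearGroup.isClosedEmbedding_val
  exact (h3.comp hρ.emb).isClosed_range

theorem isCompact_KK (hρ : RS ρ) : IsCompact (KK ρ) := by
  have h1 : IsCompact {M : Mat n | ∀ a b, M a b ∈ Set.Icc (-1:ℝ) 1} := by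
    have h0 := isCompact_univ_pi (fun a : Fin n => isCompact_univ_pi
      fun b : Fin n => (isCompact_Icc : IsCompact (Set.Icc (-1:ℝ) 1)))
    have e : {M : Mat n | ∀ a b, M a b ∈ Set.Icc (-1:ℝ) 1} =
        (Set.univ.pi fun _ : Fin n => Set.univ.pi fun _ : Fin n => Set.Icc (-1:ℝ) 1) := by
      ext M
      exact ⟨fun h a _ b _ => h a b, fun h a b => h a trivial b trivial⟩
    rw [e]
    exact h0
  refine h1.of_isClosed_subset ?_ ?_
  · have h2 : IsClosed {M : Mat n | M * Mᵀ = 1} :=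
      isClosed_eq (continuous_id.matrix_mul continuous_id.matrix_transpose) continuous_const
    have h3 : KK ρ = {M : Mat n | M * Mᵀ = 1} ∩ Set.range fun g => (ρ g).1 := by
      ext M; rfl
    rw [h3]
    exact h2.inter (isClosed_range hρ)
  · rintro M ⟨hM, -⟩ a b
    have h2 : ∑ c, M a c * M a c = 1 := by
      have := congrFun (congrFun hM a) a
      rwa [Matrix.mul_apply, Matrix.one_apply_eq] at this
    have h3 : M a b * M a b ≤ 1 := by
      rw [← h2]
      exact Finset.single_le_sum (f := fun c => M a c * M a c)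
        (fun c _ => mul_self_nonneg _) (Finset.mem_univ b)
    exact ⟨by nlinarith, by nlinarith⟩

theorem one_mem_KK : (1 : Mat n) ∈ KK ρ :=
  ⟨by rw [Matrix.transpose_one, mul_one], 1, by rw [map_one]; rfl⟩

/-- the maximum of `κ ↦ tr(κ X κᵀ H)` -/
theorem exists_max (hρ : RS ρ) (X H : Mat n) : ∃ κ : G, Ort ρ κ ∧
    ∀ Z : Mat n, Zᵀ = -Z → Lie ρ Z → ∀ t, fn Z H ((ρ κ).1 * X * (ρ κ).1ᵀ) t ≤
      fn Z H ((ρ κ).1 * X * (ρ κ).1ᵀ) 0 := by
  have hc : Continuous fun M : Mat n => (M * X * Mᵀ * H).trace :=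
    (((continuous_id.matrix_mul continuous_const).matrix_mul
      continuous_id.matrix_transpose).matrix_mul continuous_const).matrix_trace
  obtain ⟨M, ⟨hM, κ, hκ⟩, hmax⟩ := (isCompact_KK hρ).exists_isMaxOn ⟨1, one_mem_KK (ρ := ρ)⟩
    hc.continuousOn
  refine ⟨κ, by unfold Ort; rw [hκ]; exact hM, fun Z hZ hZl t => ?_⟩
  rw [fn_zero, hκ]
  obtain ⟨g, hg⟩ := hZl t
  have h1 : NormedSpace.exp (t • Z) * M ∈ KK ρ := by
    refine ⟨?_, g * κ, ?_⟩
    · rw [Matrix.transpose_mul, ← exp_neg_eq hZ]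
      calc _ = NormedSpace.exp (t • Z) * (M * Mᵀ) * NormedSpace.exp (t • (-Z)) := by
            noncomm_ring
        _ = 1 := by rw [hM, mul_one, exp_mul_exp_neg]
    · rw [map_mul, Matrix.SpecialLinearGroup.coe_mul, hg, hκ]
  have h2 := hmax h1
  have e : fn Z H (M * X * Mᵀ) t =
      (NormedSpace.exp (t • Z) * M * X * (NormedSpace.exp (t • Z) * M)ᵀ * H).trace := by
    unfold fn
    rw [Matrix.transpose_mul, ← exp_neg_eq hZ]
    congr 1
    noncomm_ring
  rw [e]
  exact h2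

/-! ### First order: the maximum is diagonal -/

theorem trace_comm_mul (A B C : Mat n) :
    ((A * B - B * A) * C).trace = (A * (B * C - C * B)).trace := by
  rw [Matrix.sub_mul, Matrix.mul_sub, Matrix.trace_sub, Matrix.trace_sub]
  have h1 : (A * B * C).trace = (A * (B * C)).trace := by rw [Matrix.mul_assoc]
  have h2 : (B * A * C).trace = (A * (C * B)).trace := by
    rw [Matrix.mul_assoc, Matrix.trace_mul_comm, Matrix.mul_assoc]
  rw [h1, h2]

theorem eq_zero_of_trace {M : Mat n} (h : (M * Mᵀ).trace = 0) : M = 0 := by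
  have h1 : ∑ a, ∑ b, M a b * M a b = 0 := by
    rw [← h, Matrix.trace]
    refine Finset.sum_congr rfl fun a _ => ?_
    rw [Matrix.diag_apply, Matrix.mul_apply]
    rfl
  ext a b
  have h2 := (Finset.sum_eq_zero_iff_of_nonneg
    fun a _ => Finset.sum_nonneg fun b _ => mul_self_nonneg (M a b)).1 h1 a (Finset.mem_univ a)
  have h3 := (Finset.sum_eq_zero_iff_of_nonneg
    fun b _ => mul_self_nonneg (M a b)).1 h2 b (Finset.mem_univ b)
  rw [mul_self_eq_zero.1 h3]
  rfl

theorem comm_of_max {A H : Mat n} (hA : Aᵀ = A) (hH : Hᵀ = H)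
    (hl : Lie ρ (A * H - H * A))
    (hmax : ∀ Z : Mat n, Zᵀ = -Z → Lie ρ Z → ∀ t, fn Z H A t ≤ fn Z H A 0) :
    A * H = H * A := by
  have hZ : (A * H - H * A)ᵀ = -(A * H - H * A) := by
    rw [Matrix.transpose_sub, Matrix.transpose_mul, Matrix.transpose_mul, hA, hH, neg_sub]
  have h1 := first_order (hmax _ hZ hl)
  rw [trace_comm_mul] at h1
  have h2 : ((A * H - H * A) * (A * H - H * A)ᵀ).trace = 0 := by
    rw [hZ, mul_neg, Matrix.trace_neg, h1, neg_zero]
  exact sub_eq_zero.1 (eq_zero_of_trace h2)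

/-! ### Second order: the maximum is dominant -/

theorem dom_of_max {x h : Fin n → ℝ} {E : Mat n} {c d : ℝ} (hd : 0 < d) (hE : E ≠ 0)
    (hEl : Lie ρ (E - Eᵀ))
    (hx : diagonal x * E - E * diagonal x = c • E)
    (hh : diagonal h * E - E * diagonal h = d • E)
    (hmax : ∀ Z : Mat n, Zᵀ = -Z → Lie ρ Z → ∀ t,
      fn Z (diagonal h) (diagonal x) t ≤ fn Z (diagonal h) (diagonal x) 0) : 0 ≤ c := by
  have hT : ∀ {y : Fin n → ℝ} {e : ℝ}, diagonal y * E - E * diagonal y = e • E →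
      diagonal y * Eᵀ - Eᵀ * diagonal y = -(e • Eᵀ) := by
    intro y e he
    have := congrArg Matrix.transpose he
    rw [Matrix.transpose_sub, Matrix.transpose_mul, Matrix.transpose_mul, diagonal_transpose,
      Matrix.transpose_smul] at this
    rw [← this, neg_sub]
  obtain ⟨Z, hZ⟩ : ∃ Z, Z = E - Eᵀ := ⟨_, rfl⟩
  obtain ⟨S, hS⟩ : ∃ S, S = E + Eᵀ := ⟨_, rfl⟩
  have hZt : Zᵀ = -Z := by
    rw [hZ, Matrix.transpose_sub, Matrix.transpose_transpose, neg_sub]
  have hSt : Sᵀ = S := by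
    rw [hS, Matrix.transpose_add, Matrix.transpose_transpose, add_comm]
  have hc : ∀ {y : Fin n → ℝ} {e : ℝ}, diagonal y * E - E * diagonal y = e • E →
      diagonal y * Z - Z * diagonal y = e • S := by
    intro y e he
    have h1 := hT he
    rw [hZ, hS, smul_add, Matrix.mul_sub, Matrix.sub_mul]
    have : diagonal y * E - diagonal y * Eᵀ - (E * diagonal y - Eᵀ * diagonal y) =
        (diagonal y * E - E * diagonal y) - (diagonal y * Eᵀ - Eᵀ * diagonal y) := by abel
    rw [this, he, h1, sub_neg_eq_add]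
  have h1 := second_order (hmax Z hZt (by rw [hZ]; exact hEl))
  have hxc : Z * diagonal x - diagonal x * Z = -(c • S) := by
    rw [← hc hx, neg_sub]
  rw [hxc, trace_comm_mul] at h1
  -- tr(Z * ([Z,A] * H - H * [Z,A])) = tr([H,Z] * [Z,A]) rearranged
  have h2 : (Z * (-(c • S) * diagonal h - diagonal h * -(c • S))).trace =
      -(c * d * (S * Sᵀ).trace) := by
    have e1 : (Z * (-(c • S) * diagonal h - diagonal h * -(c • S))).trace =
        (-(c • S) * (diagonal h * Z - Z * diagonal h)).trace := by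
      rw [Matrix.mul_sub, Matrix.mul_sub, Matrix.trace_sub, Matrix.trace_sub]
      congr 1
      · rw [← Matrix.mul_assoc, Matrix.trace_mul_comm, Matrix.trace_mul_comm,
          Matrix.trace_mul_comm, ← Matrix.mul_assoc, Matrix.trace_mul_comm, ← Matrix.mul_assoc]
      · rw [← Matrix.mul_assoc, Matrix.trace_mul_comm]
    rw [e1, hc hh, hSt]
    rw [neg_mul, smul_mul_smul_comm, Matrix.trace_neg, Matrix.trace_smul, smul_eq_mul]
  rw [h2] at h1
  have hS0 : S ≠ 0 := by
    intro h0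
    apply hE
    ext a b
    have h3 : E a b + E b a = 0 := by
      have := congrFun (congrFun h0 a) b
      rw [hS] at this
      simpa using this
    have h4 : (h a - h b) * E a b = d * E a b := by
      have := congrFun (congrFun hh a) b
      simp only [Matrix.sub_apply, Matrix.diagonal_mul, Matrix.mul_diagonal, Matrix.smul_apply,
        smul_eq_mul] at this
      linarith
    have h5 : (h b - h a) * E b a = d * E b a := by
      have := congrFun (congrFun hh b) a
      simp only [Matrix.sub_apply, Matrix.diagonal_mul, Matrix.mul_diagonal, Matrix.smul_apply,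
        smul_eq_mul] at this
      linarith
    by_contra hne
    change E a b ≠ 0 at hne
    have h6 : h a - h b = d := mul_right_cancel₀ hne h4
    have hne' : E b a ≠ 0 := fun h7 => hne (by linarith)
    have h7 : h b - h a = d := mul_right_cancel₀ hne' h5
    linarith
  have hSp : 0 < (S * Sᵀ).trace := by
    have h3 : 0 ≤ (S * Sᵀ).trace := by
      rw [Matrix.trace]
      refine Finset.sum_nonneg fun a _ => ?_
      rw [Matrix.diag_apply, Matrix.mul_apply]
      exact Finset.sum_nonneg fun b _ => mul_self_nonneg (S a b)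
    exact lt_of_le_of_ne h3 fun h4 => hS0 (eq_zero_of_trace h4.symm)
  by_contra hc0
  push Not at hc0
  have : 0 < -(c * d * (S * Sᵀ).trace) := by
    have h3 : c * d < 0 := mul_neg_of_neg_of_pos hc0 hd
    have h4 := mul_neg_of_neg_of_pos h3 hSp
    linarith
  linarith

/-! ### The Cartan decomposition -/

theorem car_of {h : Fin n → ℝ} {r : ℕ} {p q : Fin r → Fin n} {w : Fin r → Fin n → ℝ}
    {E : Fin r → Mat n} (hρ : RS ρ) (hD : Dg ρ h) (hS : Sr ρ h p q w E)
    (add : ∀ X Y : Mat n, Lie ρ X → Lie ρ Y → Lie ρ (X + Y))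
    (brk : ∀ X Y : Mat n, Lie ρ X → Lie ρ Y → Lie ρ (X * Y - Y * X))
    (pol : ∀ g : G, ∃ (κ : G) (X : Mat n), Ort ρ κ ∧ Xᵀ = X ∧ Lie ρ X ∧
      (ρ g).1 = (ρ κ).1 * NormedSpace.exp X) (g : G) :
    ∃ (κ κ' : G) (x : Fin n → ℝ), Ort ρ κ ∧ Ort ρ κ' ∧ Dom ρ p q x ∧
      (ρ g).1 = (ρ κ).1 * diagonal (fun a => Real.exp (x a)) * (ρ κ').1 := by
  obtain ⟨κ₁, X, hκ₁, hX, hXl, hg⟩ := pol g
  obtain ⟨κ₀, hκ₀, hmax⟩ := exists_max hρ X (diagonal h)
  obtain ⟨A, hA⟩ : ∃ A, A = (ρ κ₀).1 * X * (ρ κ₀).1ᵀ := ⟨_, rfl⟩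
  rw [← hA] at hmax
  have hAt : Aᵀ = A := by
    rw [hA, Matrix.transpose_mul, Matrix.transpose_mul, Matrix.transpose_transpose, hX,
      Matrix.mul_assoc]
  have hAl : Lie ρ A := by rw [hA]; exact lie_conj hXl hκ₀
  have hcomm := comm_of_max hAt (diagonal_transpose h) (brk _ _ hAl hD.lie) hmax
  obtain ⟨x, hx⟩ := hD.cent A hAl hAt hcomm
  have hxl : Lie ρ (diagonal x) := hx ▸ hAl
  have hdom : Dom ρ p q x := by
    refine ⟨hxl, fun j => ?_⟩
    refine dom_of_max (ρ := ρ) (E := E j) (h := h) (x := x) (d := h (p j) - h (q j))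
      (by linarith [hS.hpq j]) (hS.En j) ?_ (hS.Ew j x hxl) (hS.Ew j h hD.lie) ?_
    · rw [sub_eq_add_neg]
      exact add _ _ (hS.El j) (lie_neg (lie_transpose hρ (hS.El j)))
    · intro Z hZ hZl t
      rw [← hx]
      exact hmax Z hZ hZl t
  -- `ρ κ₀ᵀ * ρ κ₀ = 1`
  have hinv : (ρ κ₀⁻¹).1 = (ρ κ₀).1ᵀ := by
    rw [ort_inv hκ₀]
    refine (Matrix.inv_eq_right_inv ?_).symm
    rw [← Matrix.SpecialLinearGroup.coe_mul, ← map_mul, mul_inv_cancel, map_one,
      Matrix.SpecialLinearGroup.coe_one]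
  have hinv' : (ρ κ₀).1ᵀ * (ρ κ₀).1 = 1 := by
    rw [← hinv, ← Matrix.SpecialLinearGroup.coe_mul, ← map_mul, inv_mul_cancel, map_one,
      Matrix.SpecialLinearGroup.coe_one]
  have hXA : X = (ρ κ₀).1⁻¹ * A * (ρ κ₀).1 := by
    rw [hA, ← ort_inv hκ₀]
    calc X = 1 * X * 1 := by rw [one_mul, mul_one]
      _ = (ρ κ₀).1ᵀ * ((ρ κ₀).1 * X * (ρ κ₀).1ᵀ) * (ρ κ₀).1 := by
        rw [← hinv']
        noncomm_ring
  refine ⟨κ₁ * κ₀⁻¹, κ₀, x, ?_, hκ₀, hdom, ?_⟩
  · show (ρ (κ₁ * κ₀⁻¹)).1 * (ρ (κ₁ * κ₀⁻¹)).1ᵀ = 1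
    rw [map_mul, Matrix.SpecialLinearGroup.coe_mul, hinv, Matrix.transpose_mul,
      Matrix.transpose_transpose]
    calc _ = (ρ κ₁).1 * ((ρ κ₀).1ᵀ * (ρ κ₀).1) * (ρ κ₁).1ᵀ := by noncomm_ring
      _ = 1 := by rw [hinv', mul_one]; exact hκ₁
  · rw [hg, map_mul, Matrix.SpecialLinearGroup.coe_mul, hinv, hXA,
      Matrix.exp_conj' _ _ (ort_isUnit hκ₀), hx, Matrix.exp_diagonal, ort_inv hκ₀]
    have e : (NormedSpace.exp x : Fin n → ℝ) = fun a => Real.exp (x a) := by
      funext a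
      rw [Real.exp_eq_exp_ℝ, Pi.coe_exp]
    rw [e]
    noncomm_ring

end Vale.Agent.P092.H35.ReK
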