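import Vale.Agent.P092.SD.Top

/-!
P092, TEAM N, block [N-TOP] (helper35): the top of the assembly, for any group `E`; subgroups of
finite index of `SL_n(ℤ)` are ICC lattices of `SL_n(ℝ)`, all `n ≥ 3`.
-/

set_option linter.all false

open scoped InnerProductSpace
open ContinuousLinearMap Matrix

namespace Vale.Agent.P092.H35.TopN

open Vale.Agent.P092.H160 Vale.Agent.P092.SR Vale.Agent.P092.H515.St

/-- The core statement for lattices of `E`: `Λ` any countable ICC group. -/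
def CoreE (E : Type) [Group E] [TopologicalSpace E] : Prop :=
  ∀ (Γ : Subgroup E), IsLattice Γ →
    (∀ g : Γ, g ≠ 1 → Set.Infinite {y : Γ | ∃ h, y = h * g * h⁻¹}) →
    ∀ {Λ : Type} [Group Λ] [Countable Λ],
      (∀ g : Λ, g ≠ 1 → Set.Infinite {y : Λ | ∃ h, y = h * g * h⁻¹}) →
      ∀ α : Γ →* (Ell2 Λ →L[ℂ] Ell2 Λ), Frame α → SD.HgtV α

/-- `Γ` is (isomorphic to) an ICC lattice of `E`. -/
def LatE (E : Type) [Group E] [TopologicalSpace E] (Γ : Type) [Group Γ] : Prop :=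
  SR.St.ICC Γ ∧ ∃ i : Γ →* E, Function.Injective i ∧ IsLattice i.range

theorem super_of_core {E : Type} [Group E] [TopologicalSpace E] (h : CoreE E) (Γ : Type) [Group Γ]
    (hΓ : LatE E Γ) : SR.St.Super Γ := by
  obtain ⟨hicc, i, hi, hl⟩ := hΓ
  refine H58.super_equiv (MonoidHom.ofInjective hi) fun Λ _ _ hΛ θ => ?_
  have hicc' := H133.icc_equiv (MonoidHom.ofInjective hi) hicc
  exact SD.canonical_of_hgt hicc' θ fun α hα => h i.range hl hicc' hΛ α hα

/-- A subgroup of finite index of `SL_n(ℤ)` which does not contain `-1` is an ICC lattice of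
`SL_n(ℝ)`. -/
theorem latE_of_finiteIndex {n : ℕ} (hn : 2 ≤ n) (Γ : Subgroup (SpecialLinearGroup (Fin n) ℤ))
    [Γ.FiniteIndex] (hneg : ∀ g ∈ Γ, (g : Matrix (Fin n) (Fin n) ℤ) ≠ -1) :
    LatE (SpecialLinearGroup (Fin n) ℝ) Γ := by
  refine ⟨icc_of_fi hn Γ hneg, (H670.imR Γ).subtype.comp
    (H670.imEquiv Γ).toMonoidHom, ?_, ?_⟩
  · exact (Subtype.val_injective).comp (H670.imEquiv Γ).injective
  · have h1 : ((H670.imR Γ).subtype.comp (H670.imEquiv Γ).toMonoidHom).range = H670.imR Γ := by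
      rw [MonoidHom.range_comp, MonoidHom.range_eq_top.2 (H670.imEquiv Γ).surjective,
        ← MonoidHom.range_eq_map, Subgroup.range_subtype]
    rw [h1]
    have h2 := H19.isLat_imR Γ
    exact ⟨h2.disc, h2.covol⟩

/-- For odd `n` there is no condition. -/
theorem latE_of_odd {n : ℕ} (hn : 2 ≤ n) (ho : Odd n) (Γ : Subgroup (SpecialLinearGroup (Fin n) ℤ))
    [Γ.FiniteIndex] : LatE (SpecialLinearGroup (Fin n) ℝ) Γ := by
  refine latE_of_finiteIndex hn Γ fun g _ h => ?_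
  have h1 : (g : Matrix (Fin n) (Fin n) ℤ).det = 1 := g.2
  rw [h, Matrix.det_neg, det_one, mul_one, Fintype.card_fin, ho.neg_one_pow] at h1
  norm_num at h1

/-- Every finite index subgroup of `SL_n(ℤ)`, `n ≥ 3`, without `-1`; all of them for odd `n`. -/
theorem super_SLZ (h : ∀ n, 3 ≤ n → CoreE (SpecialLinearGroup (Fin n) ℝ)) (n : ℕ) (hn : 3 ≤ n) :
    (∀ Γ : Subgroup (SpecialLinearGroup (Fin n) ℤ), Γ.FiniteIndex →
      (∀ g ∈ Γ, (g : Matrix (Fin n) (Fin n) ℤ) ≠ -1) → SR.St.Super Γ) ∧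
    (Odd n → ∀ Γ : Subgroup (SpecialLinearGroup (Fin n) ℤ), Γ.FiniteIndex → SR.St.Super Γ) :=
  ⟨fun Γ _ hneg => super_of_core (h n hn) Γ (latE_of_finiteIndex (by omega) Γ hneg),
    fun ho Γ _ => super_of_core (h n hn) Γ (latE_of_odd (by omega) ho Γ)⟩

end Vale.Agent.P092.H35.TopN
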