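import Mathlib

/-!
P092, TEAM N, block [N-FR] (F6) (helper35): transfer of a calculus along an open embedding.
`e : X → Z` is an open embedding of a locally compact space into a compact space (in use: the frame
map `PGL_n(k) → (ℙ)^(n+1)`), `P` a calculus on `Z`. Extension by zero gives the calculus `tr P`
on `C₀(X, ℂ)`.
-/

set_option linter.all false

open scoped ZeroAtInfty InnerProductSpace
open Topology Filter Set

namespace Vale.Agent.P092.H35.Tr

section ext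

variable {X Z : Type*} [TopologicalSpace X] [TopologicalSpace Z] [CompactSpace Z] [T2Space Z]
  {e : X → Z}

open Classical in
/-- extension by zero -/
noncomputable def ez (e : X → Z) (ψ : X → ℂ) (z : Z) : ℂ :=
  if h : ∃ x, e x = z then ψ h.choose else 0

theorem ez_apply (he : IsOpenEmbedding e) (ψ : X → ℂ) (x : X) : ez e ψ (e x) = ψ x := by
  have h : ∃ y, e y = e x := ⟨x, rfl⟩
  rw [ez, dif_pos h]
  exact congrArg ψ (he.injective h.choose_spec)

theorem ez_not (ψ : X → ℂ) {z : Z} (hz : z ∉ range e) : ez e ψ z = 0 := by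
  rw [ez, dif_neg]
  exact hz

theorem ez_cont (he : IsOpenEmbedding e) (ψ : C₀(X, ℂ)) : Continuous (ez e ψ) := by
  rw [continuous_iff_continuousAt]
  intro z
  by_cases hz : z ∈ range e
  · obtain ⟨x, rfl⟩ := hz
    rw [← he.continuousAt_iff]
    have : ez e ψ ∘ e = ψ := funext fun x => ez_apply he ψ x
    rw [this]
    exact (map_continuous ψ).continuousAt
  · rw [Metric.continuousAt_iff']
    intro ε hε
    rw [ez_not _ hz]
    have h1 : ∀ᶠ x in cocompact X, ‖ψ x‖ < ε := by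
      have := (Metric.tendsto_nhds.1 (zero_at_infty ψ)) ε hε
      filter_upwards [this] with x hx
      rwa [dist_zero_right] at hx
    obtain ⟨C, hC, hC2⟩ := mem_cocompact.1 h1
    have h2 : IsClosed (e '' C) := (hC.image he.continuous).isClosed
    have h3 : z ∉ e '' C := fun ⟨x, _, hx⟩ => hz ⟨x, hx⟩
    filter_upwards [h2.isOpen_compl.mem_nhds h3] with w hw
    rw [dist_zero_right]
    by_cases hw' : w ∈ range e
    · obtain ⟨x, rfl⟩ := hw'
      rw [ez_apply he]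
      exact hC2 (fun hx => hw ⟨x, hx, rfl⟩)
    · rw [ez_not _ hw', norm_zero]
      exact hε

/-- **extension by zero** as a homomorphism -/
noncomputable def extz (he : IsOpenEmbedding e) : C₀(X, ℂ) →⋆ₙₐ[ℂ] C(Z, ℂ) where
  toFun ψ := ⟨ez e ψ, ez_cont he ψ⟩
  map_smul' c ψ := by
    ext z
    change ez e (c • ψ) z = c • ez e ψ z
    by_cases hz : z ∈ range e
    · obtain ⟨x, rfl⟩ := hz
      rw [ez_apply he, ez_apply he]
      rfl
    · rw [ez_not _ hz, ez_not _ hz, smul_zero]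
  map_zero' := by
    ext z
    change ez e ((0 : C₀(X, ℂ)) : X → ℂ) z = 0
    by_cases hz : z ∈ range e
    · obtain ⟨x, rfl⟩ := hz
      rw [ez_apply he]
      rfl
    · rw [ez_not _ hz]
  map_add' ψ φ := by
    ext z
    change ez e ((ψ + φ : C₀(X, ℂ)) : X → ℂ) z = ez e ψ z + ez e φ z
    by_cases hz : z ∈ range e
    · obtain ⟨x, rfl⟩ := hz
      rw [ez_apply he, ez_apply he, ez_apply he]
      rfl
    · rw [ez_not _ hz, ez_not _ hz, ez_not _ hz, add_zero]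
  map_mul' ψ φ := by
    ext z
    change ez e ((ψ * φ : C₀(X, ℂ)) : X → ℂ) z = ez e ψ z * ez e φ z
    by_cases hz : z ∈ range e
    · obtain ⟨x, rfl⟩ := hz
      rw [ez_apply he, ez_apply he, ez_apply he]
      rfl
    · rw [ez_not _ hz, ez_not _ hz, ez_not _ hz, mul_zero]
  map_star' ψ := by
    ext z
    change ez e ((star ψ : C₀(X, ℂ)) : X → ℂ) z = star (ez e ψ z)
    by_cases hz : z ∈ range e
    · obtain ⟨x, rfl⟩ := hz
      rw [ez_apply he, ez_apply he]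
      rfl
    · rw [ez_not _ hz, ez_not _ hz, star_zero]

theorem extz_apply (he : IsOpenEmbedding e) (ψ : C₀(X, ℂ)) (x : X) : extz he ψ (e x) = ψ x :=
  ez_apply he ψ x

theorem extz_not (he : IsOpenEmbedding e) (ψ : C₀(X, ℂ)) {z : Z} (hz : z ∉ range e) :
    extz he ψ z = 0 := ez_not _ hz

/-- multiplication rule -/
theorem mul_extz (he : IsOpenEmbedding e) (F : C(Z, ℂ)) (ψ ψ' : C₀(X, ℂ))
    (h : ∀ x, ψ' x = F (e x) * ψ x) : F * extz he ψ = extz he ψ' := by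
  ext z
  rw [ContinuousMap.mul_apply]
  by_cases hz : z ∈ range e
  · obtain ⟨x, rfl⟩ := hz
    rw [extz_apply, extz_apply, h]
  · rw [extz_not he _ hz, extz_not he _ hz, mul_zero]

/-- transport -/
theorem extz_comp (he : IsOpenEmbedding e) (A : C(Z, Z)) (a : X → X)
    (hA : ∀ x, A (e x) = e (a x)) (hA' : ∀ z, z ∉ range e → A z ∉ range e)
    (ψ ψ' : C₀(X, ℂ)) (h : ∀ x, ψ' x = ψ (a x)) : (extz he ψ).comp A = extz he ψ' := by
  ext z
  rw [ContinuousMap.comp_apply]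
  by_cases hz : z ∈ range e
  · obtain ⟨x, rfl⟩ := hz
    rw [hA, extz_apply, extz_apply, h]
  · rw [extz_not he _ hz, extz_not he _ (hA' z hz)]

/-- a continuous function which vanishes off the range comes from `C₀` -/
theorem exists_extz (he : IsOpenEmbedding e) (F : C(Z, ℂ)) (hF : ∀ z, z ∉ range e → F z = 0) :
    ∃ ψ : C₀(X, ℂ), extz he ψ = F := by
  refine ⟨⟨⟨fun x => F (e x), F.continuous.comp he.continuous⟩, ?_⟩, ?_⟩
  · rw [Metric.tendsto_nhds]
    intro ε hε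
    have h1 : IsCompact {z : Z | ε ≤ ‖F z‖} :=
      (isClosed_le continuous_const F.continuous.norm).isCompact
    have h2 : {z : Z | ε ≤ ‖F z‖} ⊆ range e := by
      intro z hz
      by_contra hc
      have : ε ≤ ‖F z‖ := hz
      rw [hF z hc, norm_zero] at this
      exact absurd hε (not_lt.2 this)
    have h3 : IsCompact (e ⁻¹' {z : Z | ε ≤ ‖F z‖}) := by
      rw [he.isEmbedding.isCompact_iff, image_preimage_eq_of_subset h2]
      exact h1
    filter_upwards [h3.compl_mem_cocompact] with x hx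
    change dist (F (e x)) 0 < ε
    rw [dist_zero_right]
    exact not_le.1 hx
  · ext z
    by_cases hz : z ∈ range e
    · obtain ⟨x, rfl⟩ := hz
      rw [extz_apply]
      rfl
    · rw [extz_not he _ hz, hF z hz]

end ext

section cal

variable {X Z : Type*} [TopologicalSpace X] [TopologicalSpace Z] [CompactSpace Z] [T2Space Z]
  {e : X → Z} {K : Type*} [NormedAddCommGroup K] [InnerProductSpace ℂ K] [CompleteSpace K]

/-- the transferred calculus -/
noncomputable def tr (he : IsOpenEmbedding e) (P : C(Z, ℂ) →⋆ₐ[ℂ] (K →L[ℂ] K)) :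
    C₀(X, ℂ) →⋆ₙₐ[ℂ] (K →L[ℂ] K) :=
  (P : C(Z, ℂ) →⋆ₙₐ[ℂ] (K →L[ℂ] K)).comp (extz he)

theorem tr_apply (he : IsOpenEmbedding e) (P : C(Z, ℂ) →⋆ₐ[ℂ] (K →L[ℂ] K)) (ψ : C₀(X, ℂ)) :
    tr he P ψ = P (extz he ψ) := rfl

/-- `P` is carried by the open set `O` -/
def Car (P : C(Z, ℂ) →⋆ₐ[ℂ] (K →L[ℂ] K)) (O : Set Z) : Prop :=
  ∀ ξ, (∀ F : C(Z, ℂ), (∀ z, z ∉ O → F z = 0) → P F ξ = 0) → ξ = 0

theorem tr_nd (he : IsOpenEmbedding e) {P : C(Z, ℂ) →⋆ₐ[ℂ] (K →L[ℂ] K)}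
    (hP : Car P (range e)) (ξ : K) (h : ∀ ψ, tr he P ψ ξ = 0) : ξ = 0 := by
  refine hP ξ fun F hF => ?_
  obtain ⟨ψ, rfl⟩ := exists_extz he F hF
  exact h ψ

theorem mul_tr (he : IsOpenEmbedding e) (P : C(Z, ℂ) →⋆ₐ[ℂ] (K →L[ℂ] K)) (F : C(Z, ℂ))
    (ψ ψ' : C₀(X, ℂ)) (h : ∀ x, ψ' x = F (e x) * ψ x) : P F * tr he P ψ = tr he P ψ' := by
  rw [tr_apply, tr_apply, ← map_mul, mul_extz he F ψ ψ' h]

theorem tr_mul (he : IsOpenEmbedding e) (P : C(Z, ℂ) →⋆ₐ[ℂ] (K →L[ℂ] K)) (F : C(Z, ℂ))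
    (ψ ψ' : C₀(X, ℂ)) (h : ∀ x, ψ' x = F (e x) * ψ x) : tr he P ψ * P F = tr he P ψ' := by
  rw [tr_apply, tr_apply, ← map_mul, mul_comm, mul_extz he F ψ ψ' h]

/-- covariance -/
theorem tr_conj (he : IsOpenEmbedding e) (P P' : C(Z, ℂ) →⋆ₐ[ℂ] (K →L[ℂ] K)) (A : C(Z, Z))
    (a : X → X) (hA : ∀ x, A (e x) = e (a x)) (hA' : ∀ z, z ∉ range e → A z ∉ range e)
    {U V : K →L[ℂ] K} (hc : ∀ F, U * P F * V = P' (F.comp A)) (ψ ψ' : C₀(X, ℂ))
    (h : ∀ x, ψ' x = ψ (a x)) : U * tr he P ψ * V = tr he P' ψ' := by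
  rw [tr_apply, tr_apply, hc, extz_comp he A a hA hA' ψ ψ' h]

theorem tr_comm (he : IsOpenEmbedding e) (P : C(Z, ℂ) →⋆ₐ[ℂ] (K →L[ℂ] K)) {T : K →L[ℂ] K}
    (hT : ∀ F, Commute T (P F)) (ψ : C₀(X, ℂ)) : Commute T (tr he P ψ) := hT _

/-- the ranges of a nondegenerate homomorphism are total -/
theorem eq_of_mul_eq {Q : C₀(X, ℂ) →⋆ₙₐ[ℂ] (K →L[ℂ] K)} (hnd : ∀ ξ, (∀ ψ, Q ψ ξ = 0) → ξ = 0)
    {S T : K →L[ℂ] K} (h : ∀ ψ, S * Q ψ = T * Q ψ) : S = T := by
  have h1 : ∀ ξ, ContinuousLinearMap.adjoint (S - T) ξ = 0 := by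
    intro ξ
    refine hnd _ fun ψ => ?_
    have h2 : Q ψ * ContinuousLinearMap.adjoint (S - T) = 0 := by
      have h3 : (S - T) * Q (star ψ) = 0 := by rw [sub_mul, h, sub_self]
      have h4 := congrArg ContinuousLinearMap.adjoint h3
      rw [map_zero, ← ContinuousLinearMap.star_eq_adjoint, star_mul, map_star, star_star,
        ContinuousLinearMap.star_eq_adjoint] at h4
      exact h4
    exact congrArg (fun A : K →L[ℂ] K => A ξ) h2
  have h2 : ContinuousLinearMap.adjoint (S - T) = 0 := ContinuousLinearMap.ext h1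
  have h3 : S - T = 0 := by
    rw [← ContinuousLinearMap.adjoint_adjoint (S - T), h2, map_zero]
  exact sub_eq_zero.1 h3

/-- **uniqueness**: a nondegenerate homomorphism with the multiplication rule is the transfer -/
theorem eq_tr (he : IsOpenEmbedding e) (P : C(Z, ℂ) →⋆ₐ[ℂ] (K →L[ℂ] K))
    (Q : C₀(X, ℂ) →⋆ₙₐ[ℂ] (K →L[ℂ] K)) (hnd : ∀ ξ, (∀ ψ, Q ψ ξ = 0) → ξ = 0)
    (hm : ∀ (F : C(Z, ℂ)) (ψ ψ' : C₀(X, ℂ)), (∀ x, ψ' x = F (e x) * ψ x) → P F * Q ψ = Q ψ') :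
    Q = tr he P := by
  refine NonUnitalStarAlgHom.ext fun ψ => ?_
  refine eq_of_mul_eq hnd fun φ => ?_
  rw [tr_apply, hm (extz he ψ) φ (ψ * φ) (fun x => by
    rw [extz_apply]; rfl), map_mul]

/-- two nondegenerate homomorphisms with the same multiplication rule for functions `f` of a
continuous map `e` into a space are equal (no compactification) -/
theorem nd_comm {Q₁ Q₂ : C₀(X, ℂ) →⋆ₙₐ[ℂ] (K →L[ℂ] K)}
    (h : ∀ ψ φ, Q₁ ψ * Q₂ φ = Q₂ (ψ * φ)) (hnd : ∀ ξ, (∀ ψ, Q₂ ψ ξ = 0) → ξ = 0) :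
    Q₁ = Q₂ := by
  refine NonUnitalStarAlgHom.ext fun ψ => ?_
  refine eq_of_mul_eq hnd fun φ => ?_
  rw [h, map_mul]

end cal

end Vale.Agent.P092.H35.Tr
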